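import Crest.Agent.R292.Basic

/-! Row 292: Baire category on Cantor space, cylinders. -/

set_option autoImplicit false
open Filter Topology

namespace Crest.Agent.R292

instance residual_neBot : NeBot (residual C) :=
  Filter.forall_mem_nonempty_iff_neBot.1 fun _ hs => (dense_of_mem_residual hs).nonempty

/-- Every neighbourhood contains a cylinder. -/
theorem exists_cyl_subset {U : Set C} {a : C} (hU : U ∈ 𝓝 a) :
    ∃ n, ∀ x : C, (∀ i < n, x i = a i) → x ∈ U := by
  rw [nhds_pi, Filter.mem_pi] at hU
  obtain ⟨I, hI, t, ht, hsub⟩ := hU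
  obtain ⟨n, hn⟩ := hI.bddAbove
  refine ⟨n + 1, fun x hx => hsub fun i hi => ?_⟩
  rw [hx i (Nat.lt_succ_of_le (hn hi))]
  exact mem_of_mem_nhds (ht i)

theorem isOpen_cyl (n : ℕ) (a : C) : IsOpen {x : C | ∀ i < n, x i = a i} :=
  PiNat.isOpen_cylinder (E := fun _ => Bool) a n

theorem isClosed_cyl (n : ℕ) (a : C) : IsClosed {x : C | ∀ i < n, x i = a i} := by
  simp only [Set.ofPred_forall]
  exact isClosed_iInter fun i => isClosed_iInter fun _ =>
    isClosed_eq (continuous_apply i) continuous_const

theorem baire_isOpenMap {f : C → C} (h : ∀ x n, ∃ m, ∀ y : C, (∀ i < m, y i = f x i) →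
    ∃ x' : C, (∀ i < n, x' i = x i) ∧ f x' = y) : IsOpenMap f := by
  intro U hU
  rw [isOpen_iff_mem_nhds]
  rintro _ ⟨x, hx, rfl⟩
  obtain ⟨n, hn⟩ := exists_cyl_subset (hU.mem_nhds hx)
  obtain ⟨m, hm⟩ := h x n
  refine mem_of_superset ((isOpen_cyl m (f x)).mem_nhds fun _ _ => rfl) fun y hy => ?_
  obtain ⟨x', h1, h2⟩ := hm y hy
  exact ⟨x', hn x' h1, h2⟩

theorem continuous_app (n : ℕ) (a : C) : Continuous (app n a) := by
  refine continuous_pi fun i => ?_
  unfold app
  split_ifs
  · exact continuous_const
  · exact continuous_apply _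

theorem baire_app_drop {n : ℕ} {a x : C} (h : ∀ i < n, x i = a i) :
    app n a (fun i => x (n + i)) = x := by
  funext i
  unfold app
  split_ifs with hi
  · exact (h i hi).symm
  · beta_reduce; rw [Nat.add_sub_cancel' (not_lt.1 hi)]

theorem isOpenMap_app (n : ℕ) (a : C) : IsOpenMap (app n a) := by
  refine baire_isOpenMap fun x k => ⟨n + k, fun y hy => ⟨fun i => y (n + i), fun i hi => ?_, ?_⟩⟩
  · beta_reduce; rw [hy (n + i) (by omega)]; simp [app]
  · refine baire_app_drop fun i hi => ?_
    rw [hy _ (by omega)]; simp [app, hi]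

theorem tendsto_app (n : ℕ) (a : C) : Tendsto (app n a) (residual C) (residual C) :=
  tendsto_residual_of_isOpenMap (continuous_app n a) (isOpenMap_app n a)

theorem baire_tendsto_drop (n : ℕ) :
    Tendsto (fun (x : C) i => x (n + i)) (residual C) (residual C) := by
  refine tendsto_residual_of_isOpenMap (continuous_pi fun i => continuous_apply _)
    (baire_isOpenMap fun x k => ⟨k, fun y hy => ⟨app n x y, fun i hi => ?_, ?_⟩⟩)
  · unfold app
    split_ifs with h
    · rfl
    · rw [hy _ (by omega), Nat.add_sub_cancel' (not_lt.1 h)]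
  · funext i; simp [app]

theorem baire_tendsto_invol {f : C → C} (hc : Continuous f) (hf : ∀ x, f (f x) = x) :
    Tendsto f (residual C) (residual C) :=
  tendsto_residual_of_isOpenMap hc (IsOpenMap.of_inverse hc hf hf)

theorem tendsto_xr_left (a : C) : Tendsto (fun x => xr x a) (residual C) (residual C) :=
  baire_tendsto_invol (continuous_pi fun i =>
    (continuous_of_discreteTopology (f := fun b => xor b (a i))).comp (continuous_apply i))
    fun x => by funext i; simp [xr]

theorem tendsto_xr_right (a : C) : Tendsto (fun x => xr a x) (residual C) (residual C) :=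
  baire_tendsto_invol (continuous_pi fun i =>
    (continuous_of_discreteTopology (f := fun b => xor (a i) b)).comp (continuous_apply i))
    fun x => by funext i; simp [xr]

theorem tendsto_nt : Tendsto nt (residual C) (residual C) :=
  baire_tendsto_invol (continuous_pi fun i =>
    (continuous_of_discreteTopology (f := fun b => !b)).comp (continuous_apply i))
    fun x => by funext i; simp [nt]

theorem ev_app_iff {P : C → Prop} (n : ℕ) (a : C) :
    (∀ᶠ x in residual C, P (app n a x)) ↔ ∀ᶠ x in residual C, (∀ i < n, x i = a i) → P x := by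
  constructor
  · intro h
    filter_upwards [(baire_tendsto_drop n).eventually h] with x hx hc
    rwa [baire_app_drop hc] at hx
  · intro h
    filter_upwards [(tendsto_app n a).eventually h] with x hx
    exact hx fun i hi => by simp [app, hi]

theorem exists_in_cyl {P : C → Prop} (h : ∀ᶠ x in residual C, P x) (n : ℕ) (a : C) :
    ∃ x, (∀ i < n, x i = a i) ∧ P x := by
  obtain ⟨x, h1, h2⟩ := (dense_of_mem_residual h).inter_open_nonempty _ (isOpen_cyl n a)
    ⟨a, fun _ _ => rfl⟩
  exact ⟨x, h1, h2⟩

theorem freq_exists {X : Type} [TopologicalSpace X] {ι : Type} [Countable ι] {P : ι → X → Prop}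
    (h : ∃ᶠ x in residual X, ∃ i, P i x) : ∃ i, ∃ᶠ x in residual X, P i x := by
  by_contra hn
  simp only [not_exists, not_frequently] at hn
  exact h ((eventually_countable_forall.2 hn).mono fun x hx => not_exists.2 hx)

/-- A nonmeager Borel set is comeager in a cylinder. -/
theorem loc {P : C → Prop} (hP : MeasurableSet {x | P x}) (h : ∃ᶠ x in residual C, P x) :
    ∃ n a, ∀ᶠ x in residual C, P (app n a x) := by
  obtain ⟨u, hu, he⟩ := hP.residualEq_isOpen
  have he' : ∀ᶠ x in residual C, P x ↔ x ∈ u := he.mem_iff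
  obtain ⟨a, ha, ha'⟩ := (h.and_eventually he').exists
  obtain ⟨n, hn⟩ := exists_cyl_subset (hu.mem_nhds (ha'.1 ha))
  exact ⟨n, a, (ev_app_iff n a).2 (he'.mono fun x hx hc => hx.2 (hn x hc))⟩

/-- A nonmeager set is everywhere nonmeager in a cylinder. -/
theorem loc2 {P : C → Prop} (h : ∃ᶠ x in residual C, P x) :
    ∃ n a, ∀ m b, ∃ᶠ x in residual C, P (app n a (app m b x)) := by
  by_contra hn
  simp only [not_exists, not_forall, not_frequently] at hn
  apply h
  -- the good cylinders, indexed by lists
  let G : List Bool → Prop := fun l =>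
    ∀ᶠ x in residual C, (∀ i < l.length, x i = l.getD i false) → ¬ P x
  have h1 : ∀ᶠ x in residual C, ∀ l, G l → (∀ i < l.length, x i = l.getD i false) → ¬ P x := by
    refine eventually_countable_forall.2 fun l => ?_
    by_cases hl : G l
    · exact hl.mono fun x hx _ => hx
    · exact Eventually.of_forall fun x hx => absurd hx hl
  have h2 : {x : C | ∃ l, G l ∧ ∀ i < l.length, x i = l.getD i false} ∈ residual C := by
    refine residual_of_dense_open ?_ ?_
    · simp only [Set.ofPred_exists, Set.ofPred_and]
      exact isOpen_iUnion fun l => (isOpen_const).inter (isOpen_cyl _ _)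
    · refine dense_iff_inter_open.2 fun U hU ⟨a, ha⟩ => ?_
      obtain ⟨n, hc⟩ := exists_cyl_subset (hU.mem_nhds ha)
      obtain ⟨m, b, hb⟩ := hn n a
      simp only [app_app] at hb
      have hb' := (ev_app_iff (P := fun x => ¬ P x) (n + m) (app n a b)).1 hb
      have e : ∀ i < n + m, (pre (app n a b) (n + m)).getD i false = app n a b i := fun i hi => by
        rw [List.getD_eq_getElem?_getD, getElem?_pre, if_pos hi]; rfl
      refine ⟨app n a b, hc _ fun i hi => by simp [app, hi], pre (app n a b) (n + m), ?_, ?_⟩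
      · refine hb'.mono fun x hx hx' => hx fun i hi => ?_
        rw [hx' i (by rwa [length_pre]), e i hi]
      · intro i hi
        rw [length_pre] at hi
        exact (e i hi).symm
  filter_upwards [h1, h2] with x hx ⟨l, hl, hc⟩
  exact hx l hl hc

theorem countable_meager {S : Set C} (hS : S.Countable) : ∀ᶠ x in residual C, x ∉ S := by
  have h1 : ∀ a : C, ∀ᶠ x in residual C, x ≠ a := fun a => by
    refine residual_of_dense_open (s := {a}ᶜ) isOpen_compl_singleton ?_
    refine dense_iff_inter_open.2 fun U hU ⟨b, hb⟩ => ?_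
    obtain ⟨n, hc⟩ := exists_cyl_subset (hU.mem_nhds hb)
    refine ⟨app n b (fun _ => !a n), hc _ fun i hi => by simp [app, hi], fun he => ?_⟩
    have := congrFun (Set.mem_singleton_iff.1 he) n
    simp [app] at this
  have := (eventually_countable_ball hS (p := fun x a _ => x ≠ a)).2 fun a _ => h1 a
  exact this.mono fun x hx hxS => hx x hxS rfl

theorem baire_inv {P : C → Prop} (h : ∀ m, ∀ᶠ x in residual C, (P (xr x (ev m)) ↔ P x)) (N : ℕ) :
    ∀ δ : C, (∀ i, N ≤ i → δ i = false) → ∀ᶠ x in residual C, (P (xr x δ) ↔ P x) := by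
  induction N with
  | zero =>
    intro δ hδ
    refine Eventually.of_forall fun x => ?_
    have : xr x δ = x := by funext i; simp [xr, hδ i (Nat.zero_le i)]
    rw [this]
  | succ N ih =>
    intro δ hδ
    by_cases hN : δ N = false
    · refine ih δ fun i hi => ?_
      rcases hi.eq_or_lt with rfl | h'
      · exact hN
      · exact hδ i h'
    · have h1 := ih (xr δ (ev N)) fun i hi => by
        rcases hi.eq_or_lt with rfl | h'
        · simpa [xr, ev] using hN
        · simp [xr, ev, hδ i h', h'.ne']
      filter_upwards [h1, (tendsto_xr_left (xr δ (ev N))).eventually (h N)] with x hx hx'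
      have : xr (xr x (xr δ (ev N))) (ev N) = xr x δ := by funext i; simp [xr]
      rw [this] at hx'
      exact hx'.trans hx

/-- Topological zero-one law. -/
theorem zero_one {P : C → Prop} (hP : MeasurableSet {x | P x})
    (h : ∀ m, ∀ᶠ x in residual C, (P (xr x (ev m)) ↔ P x)) :
    (∀ᶠ x in residual C, P x) ∨ ∀ᶠ x in residual C, ¬ P x := by
  by_contra hn
  simp only [not_or, not_eventually, not_not] at hn
  obtain ⟨n, a, ha⟩ := loc hP hn.2
  obtain ⟨m, b, hb⟩ := loc (P := fun x => ¬ P x) hP.compl hn.1
  rw [ev_app_iff] at ha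
  have hb := (ev_app_iff (P := fun x => ¬ P x) m b).1 hb
  let δ : C := fun i => if i < n + m then xor (a i) (b i) else false
  have h1 := baire_inv h (n + m) δ fun i hi => if_neg (not_lt.2 hi)
  obtain ⟨x, hx, h2, h3, h4⟩ := exists_in_cyl
    (ha.and (((tendsto_xr_left δ).eventually hb).and h1)) (n + m) a
  refine h3 (fun i hi => ?_) (h4.2 (h2 fun i hi => hx i (by omega)))
  have : i < n + m := by omega
  simp [xr, δ, this, hx i this]

theorem countable_fibers {K : C → C} (hK : Measurable K) :
    {k | ∃ᶠ y in residual C, K y = k}.Countable := by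
  have h1 : ∀ k : C, ∃ u : Set C, IsOpen u ∧ ∀ᶠ y in residual C, (K y = k ↔ y ∈ u) := fun k => by
    obtain ⟨u, hu, he⟩ := (hK (measurableSet_singleton k)).residualEq_isOpen
    exact ⟨u, hu, he.mem_iff⟩
  choose u hu he using h1
  refine Set.PairwiseDisjoint.countable_of_isOpen (s := u) (fun k _ k' _ hne => ?_)
    (fun k _ => hu k) fun k hk => ?_
  · rw [Function.onFun, Set.disjoint_iff_inter_eq_empty]
    by_contra hne'
    obtain ⟨y, ⟨h1, h2⟩, h3, h4⟩ := (dense_of_mem_residual ((he k).and (he k'))).inter_open_nonempty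
      _ ((hu k).inter (hu k')) (Set.nonempty_iff_ne_empty.2 hne')
    exact hne ((h3.2 h1).symm.trans (h4.2 h2))
  · obtain ⟨y, h1, h2⟩ := (Filter.Frequently.and_eventually hk (he k)).exists
    exact ⟨y, h2.1 h1⟩

end Crest.Agent.R292
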