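import Crest.Agent.R292.Defs

/-! Row 292: basic facts on approximations and closure properties of `Red`. -/

set_option autoImplicit false
open Filter Topology

namespace Crest.Agent.R292

theorem length_pre (y : C) (s : ℕ) : (pre y s).length = s := by
  simp [pre]

theorem getElem?_pre (y : C) (s i : ℕ) : (pre y s)[i]? = if i < s then some (y i) else none := by
  unfold pre
  split_ifs with h
  · simp [List.getElem?_map, List.getElem?_range h]
  · simp [List.getElem?_map, List.getElem?_eq_none (show (List.range s).length ≤ i by simp; omega)]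

theorem appr_pre (y : C) : Appr (pre y) y :=
  ⟨fun s => by rw [length_pre], by
    simp only [length_pre]; exact tendsto_id⟩

theorem Conv.appr {f : List Bool → List Bool} {y x : C} (h : Conv f y x) {l : ℕ → List Bool}
    (hl : Appr l y) : Appr (fun s => f (l s)) x := by
  refine ⟨fun s => ?_, ?_⟩
  · have := h.1 (l s).length
    simp only at this ⊢
    rw [← hl.1 s] at this
    exact this
  · have := h.2.comp hl.2
    refine this.congr fun s => ?_
    simp only [Function.comp]
    rw [← hl.1 s]

theorem Appr.getElem? {l : ℕ → List Bool} {x : C} (h : Appr l x) (s i : ℕ) :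
    (l s)[i]? = if i < (l s).length then some (x i) else none := by
  conv_lhs => rw [h.1 s]
  exact getElem?_pre _ _ _

theorem Appr.unique {l : ℕ → List Bool} {x x' : C} (h : Appr l x) (h' : Appr l x') : x = x' := by
  funext i
  obtain ⟨s, hs⟩ := (h.2.eventually (eventually_gt_atTop i)).exists
  have h1 := h.getElem? s i
  have h2 := h'.getElem? s i
  rw [if_pos hs] at h1 h2
  exact Option.some.inj (h1.symm.trans h2)

theorem Conv.lim_eq {f : List Bool → List Bool} {y x : C} (h : Conv f y x) : lim f y = x := by
  funext i
  obtain ⟨s, hs⟩ := (h.2.eventually (eventually_gt_atTop i)).exists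
  have h1 := Appr.getElem? h s i
  simp only at h1 hs
  rw [if_pos hs] at h1
  unfold lim
  cases hx : x i
  · simp only [decide_eq_false_iff_not, not_exists]
    intro t ht
    have h2 := Appr.getElem? h t i
    rw [ht] at h2
    split_ifs at h2
    simp [hx] at h2
  · simp only [decide_eq_true_eq]
    exact ⟨s, by rw [h1, hx]⟩

theorem Red.refl (x : C) : Red x x := ⟨id, Computable.id, appr_pre x⟩

theorem Red.trans {x y z : C} (h : Red x y) (h' : Red y z) : Red x z := by
  obtain ⟨f, hf, h⟩ := h
  obtain ⟨g, hg, h'⟩ := h'
  exact ⟨fun l => f (g l), hf.comp hg, h.appr h'⟩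

theorem jnL_pre (x y : C) (s t : ℕ) : jnL (pre x s) (pre y t) = pre (jn x y) (2 * min s t) := by
  unfold jnL
  simp only [length_pre]
  unfold pre
  refine List.map_congr_left fun n hn => ?_
  have hn' : n < 2 * min s t := List.mem_range.1 hn
  have h1 : n / 2 < s := by omega
  have h2 : n / 2 < t := by omega
  have e1 := getElem?_pre x s (n / 2)
  have e2 := getElem?_pre y t (n / 2)
  rw [if_pos h1] at e1
  rw [if_pos h2] at e2
  unfold pre at e1 e2
  simp only [List.getD_eq_getElem?_getD, e1, e2, jn, Option.getD_some]

theorem Appr.jnL {l m : ℕ → List Bool} {x y : C} (hl : Appr l x) (hm : Appr m y) :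
    Appr (fun s => jnL (l s) (m s)) (jn x y) := by
  have key : ∀ s, R292.jnL (l s) (m s) = pre (jn x y) (2 * min (l s).length (m s).length) := by
    intro s
    conv_lhs => rw [hl.1 s, hm.1 s]
    exact jnL_pre _ _ _ _
  refine ⟨fun s => ?_, ?_⟩
  · simp only [key, length_pre]
  · simp only [key, length_pre]
    rw [tendsto_atTop]
    intro b
    filter_upwards [hl.2.eventually (eventually_ge_atTop b), hm.2.eventually (eventually_ge_atTop b)]
      with s h1 h2
    omega

theorem primrec_jnL : Primrec₂ jnL := by
  unfold jnL
  refine Primrec.list_map (f := fun q : List Bool × List Bool => List.range (2 * min q.1.length q.2.length))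
    (g := fun q n => if n % 2 = 0 then q.1.getD (n / 2) false else q.2.getD (n / 2) false) ?_ ?_
  · exact Primrec.list_range.comp (Primrec.nat_mul.comp (Primrec.const 2)
      (Primrec.nat_min.comp (Primrec.list_length.comp Primrec.fst) (Primrec.list_length.comp Primrec.snd)))
  · refine Primrec.ite (Primrec.eq.comp (Primrec.nat_mod.comp Primrec.snd (Primrec.const 2)) (Primrec.const 0)) ?_ ?_
    · exact (Primrec.list_getD false).comp (Primrec.fst.comp Primrec.fst)
        (Primrec.nat_div.comp Primrec.snd (Primrec.const 2))
    · exact (Primrec.list_getD false).comp (Primrec.snd.comp Primrec.fst)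
        (Primrec.nat_div.comp Primrec.snd (Primrec.const 2))

theorem computable_jnL : Computable₂ jnL := primrec_jnL.to_comp

theorem Red.jn {x y z : C} (hx : Red x z) (hy : Red y z) : Red (jn x y) z := by
  obtain ⟨f, hf, h⟩ := hx
  obtain ⟨g, hg, h'⟩ := hy
  exact ⟨fun l => jnL (f l) (g l), computable_jnL.comp hf hg, Appr.jnL h h'⟩

theorem Conv4.unique {ψ : List Bool × List Bool × List Bool × List Bool → List Bool}
    {a b c d x x' : C} (h : Conv4 ψ a b c d x) (h' : Conv4 ψ a b c d x') : x = x' :=
  (h _ _ _ _ (appr_pre a) (appr_pre b) (appr_pre c) (appr_pre d)).unique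
    (h' _ _ _ _ (appr_pre a) (appr_pre b) (appr_pre c) (appr_pre d))

theorem app_app (n m : ℕ) (a b x : C) : app n a (app m b x) = app (n + m) (app n a b) x := by
  funext i
  simp only [app]
  by_cases h1 : i < n
  · rw [if_pos h1, if_pos (by omega), if_pos h1]
  · rw [if_neg h1]
    by_cases h2 : i - n < m
    · rw [if_pos h2, if_pos (by omega), if_neg h1]
    · rw [if_neg h2, if_neg (by omega)]
      congr 1
      omega

end Crest.Agent.R292
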