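import Crest.Agent.R292.Basic

/-! Row 292: pointwise form of reductions, and the simple closure properties of `Red`. -/

set_option autoImplicit false
open Filter Topology

namespace Crest.Agent.R292

namespace PtAux

/-- The first defined value among `φ (l.take t) n`, `t < s`. -/
def first (φ : List Bool → ℕ → Option Bool) (l : List Bool) (n s : ℕ) : Option Bool :=
  Nat.rec (motive := fun _ => Option Bool) none (fun t acc => acc <|> φ (l.take t) n) s

theorem first_succ (φ : List Bool → ℕ → Option Bool) (l : List Bool) (n s : ℕ) :
    first φ l n (s + 1) = (first φ l n s <|> φ (l.take s) n) := rfl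

theorem first_sound {φ : List Bool → ℕ → Option Bool} {l : List Bool} {n s : ℕ} {b : Bool}
    (h : first φ l n s = some b) : ∃ t, φ (l.take t) n = some b := by
  induction s with
  | zero => exact absurd h (by simp [first])
  | succ s ih =>
    rw [first_succ] at h
    cases h' : first φ l n s with
    | none => rw [h'] at h; exact ⟨s, by simpa using h⟩
    | some c =>
      rw [h'] at h
      obtain rfl : c = b := by simpa using h
      exact ih h'

theorem first_defd {φ : List Bool → ℕ → Option Bool} {l : List Bool} {n s t : ℕ} {b : Bool}
    (ht : t < s) (h : φ (l.take t) n = some b) : ∃ c, first φ l n s = some c := by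
  induction s with
  | zero => omega
  | succ s ih =>
    rw [first_succ]
    cases h' : first φ l n s with
    | some c => exact ⟨c, by simp⟩
    | none =>
      rcases Nat.lt_succ_iff_lt_or_eq.1 ht with h₁ | rfl
      · obtain ⟨c, hc⟩ := ih h₁
        rw [h'] at hc
        exact absurd hc (by simp)
      · exact ⟨b, by simpa using h⟩

theorem computable_first {φ : List Bool → ℕ → Option Bool} (hφ : Computable₂ φ) :
    Computable₂ fun l n => first φ l n (l.length + 1) := by
  refine Computable.nat_rec (f := fun q : List Bool × ℕ => q.1.length + 1) (g := fun _ => none)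
    (h := fun q r => r.2 <|> φ (q.1.take r.1) q.2)
    (Computable.succ.comp (Computable.list_length.comp Computable.fst)) (Computable.const _) ?_
  exact Primrec.option_orElse.to_comp.comp (Computable.snd.comp Computable.snd)
    (hφ.comp (Primrec.list_take.to_comp.comp (Computable.fst.comp Computable.snd)
      (Computable.fst.comp Computable.fst)) (Computable.snd.comp Computable.fst))

/-- Extend the output by one bit at a time, `k` times. -/
def grow (ψ : List Bool → ℕ → Option Bool) (l : List Bool) (k : ℕ) : List Bool :=
  Nat.rec (motive := fun _ => List Bool) []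
    (fun _ acc => Option.casesOn (ψ l acc.length) acc fun b => acc ++ [b]) k

theorem grow_succ (ψ : List Bool → ℕ → Option Bool) (l : List Bool) (k : ℕ) :
    grow ψ l (k + 1) =
      Option.casesOn (ψ l (grow ψ l k).length) (grow ψ l k) fun b => grow ψ l k ++ [b] := rfl

theorem computable_grow {ψ : List Bool → ℕ → Option Bool} (hψ : Computable₂ ψ) :
    Computable fun l => grow ψ l l.length := by
  refine Computable.nat_rec (f := fun l : List Bool => l.length) (g := fun _ => [])
    (h := fun l r => Option.casesOn (ψ l r.2.length) r.2 fun b => r.2 ++ [b])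
    Computable.list_length (Computable.const _) ?_
  refine Computable.option_casesOn (o := fun q : List Bool × ℕ × List Bool => ψ q.1 q.2.2.length)
    (f := fun q => q.2.2) (g := fun q b => q.2.2 ++ [b])
    (hψ.comp Computable.fst (Computable.list_length.comp (Computable.snd.comp Computable.snd)))
    (Computable.snd.comp Computable.snd) ?_
  exact Computable.list_concat.comp (Computable.snd.comp (Computable.snd.comp Computable.fst))
    Computable.snd

theorem pre_succ (x : C) (n : ℕ) : pre x (n + 1) = pre x n ++ [x n] := by
  simp [pre, List.range_succ]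

theorem take_pre (y : C) (s t : ℕ) : (pre y s).take t = pre y (min t s) := by
  simp [pre, ← List.map_take, List.take_range]

theorem grow_pre {ψ : List Bool → ℕ → Option Bool} {l : List Bool} {x : C}
    (h : ∀ n b, ψ l n = some b → b = x n) (k : ℕ) :
    grow ψ l k = pre x (grow ψ l k).length := by
  induction k with
  | zero => rfl
  | succ k ih =>
    rw [grow_succ]
    cases h' : ψ l (grow ψ l k).length with
    | none => exact ih
    | some b =>
      have hb := h _ _ h'
      show grow ψ l k ++ [b] = pre x (grow ψ l k ++ [b]).length
      rw [List.length_append, List.length_singleton, pre_succ, ← ih, hb]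

theorem grow_length {ψ : List Bool → ℕ → Option Bool} {l : List Bool} {N : ℕ}
    (h : ∀ n < N, ∃ b, ψ l n = some b) (k : ℕ) : min k N ≤ (grow ψ l k).length := by
  induction k with
  | zero => simp
  | succ k ih =>
    rw [grow_succ]
    cases h' : ψ l (grow ψ l k).length with
    | none =>
      show _ ≤ (grow ψ l k).length
      by_contra hc
      obtain ⟨b, hb⟩ := h (grow ψ l k).length (by omega)
      rw [h'] at hb
      exact absurd hb (by simp)
    | some b =>
      show _ ≤ (grow ψ l k ++ [b]).length
      rw [List.length_append, List.length_singleton]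
      omega

theorem getElem?_pre_sound {y : C} {s i : ℕ} {b : Bool} (h : (pre y s)[i]? = some b) :
    b = y i := by
  rw [getElem?_pre] at h
  split_ifs at h
  exact (Option.some.inj h).symm

theorem getElem?_pre_of_lt (y : C) {s i : ℕ} (h : i < s) : (pre y s)[i]? = some (y i) := by
  rw [getElem?_pre, if_pos h]

end PtAux

open PtAux

/-- A computable partial guess which is sound on all prefixes of the oracle and is defined, for
every input, on some prefix, gives a reduction. -/
theorem red_of_pt {x y : C} (φ : List Bool → ℕ → Option Bool) (hφ : Computable₂ φ)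
    (sound : ∀ s n b, φ (pre y s) n = some b → b = x n)
    (defd : ∀ n, ∃ s b, φ (pre y s) n = some b) : Red x y := by
  refine ⟨fun l => grow (fun l n => first φ l n (l.length + 1)) l l.length,
    computable_grow (computable_first hφ), fun s => ?_, ?_⟩
  · refine grow_pre (fun n b hb => ?_) _
    obtain ⟨t, ht⟩ := first_sound hb
    rw [take_pre] at ht
    exact sound _ _ _ ht
  · choose w b hw using defd
    rw [tendsto_atTop]
    intro N
    filter_upwards [eventually_ge_atTop N, eventually_ge_atTop ((Finset.range N).sup w)]
      with s h₁ h₂
    have h := grow_length (ψ := fun l n => first φ l n (l.length + 1)) (l := pre y s) (N := N)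
      (fun n hn => by
        have hle : w n ≤ s := (Finset.le_sup (f := w) (Finset.mem_range.2 hn)).trans h₂
        refine first_defd (t := w n) (b := b n) (by rw [length_pre]; omega) ?_
        rw [take_pre, min_eq_left hle]
        exact hw n) (pre y s).length
    rw [length_pre] at h
    rw [length_pre]
    omega

theorem red_reindex (y : C) {a : ℕ → ℕ} (ha : Computable a) : Red (fun n => y (a n)) y := by
  refine red_of_pt (fun l n => l[a n]?)
    (Computable.list_getElem?.comp Computable.fst (ha.comp Computable.snd))
    (fun s n b h => getElem?_pre_sound h) fun n => ⟨a n + 1, _, getElem?_pre_of_lt y (by omega)⟩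

theorem Red.op {x y z : C} (op : Bool → Bool → Bool) (hx : Red x z) (hy : Red y z) :
    Red (fun n => op (x n) (y n)) z := by
  refine Red.trans ?_ (hx.jn hy)
  have e₁ : ∀ n, R292.jn x y (2 * n) = x n := fun n => by
    unfold R292.jn
    rw [if_pos (by omega)]
    congr 1
    omega
  have e₂ : ∀ n, R292.jn x y (2 * n + 1) = y n := fun n => by
    unfold R292.jn
    rw [if_neg (by omega)]
    congr 1
    omega
  refine red_of_pt (fun l n => (l[2 * n]?).bind fun a => (l[2 * n + 1]?).map (op a)) ?_ ?_ ?_
  · refine Primrec₂.to_comp ?_
    have h2 : Primrec fun q : List Bool × ℕ => 2 * q.2 :=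
      Primrec.nat_mul.comp (Primrec.const 2) Primrec.snd
    refine Primrec.option_bind (f := fun q : List Bool × ℕ => q.1[2 * q.2]?)
      (g := fun q a => (q.1[2 * q.2 + 1]?).map (op a))
      (Primrec.list_getElem?.comp Primrec.fst h2) ?_
    refine Primrec.option_map (f := fun q : (List Bool × ℕ) × Bool => q.1.1[2 * q.1.2 + 1]?)
      (g := fun q b => op q.2 b)
      (Primrec.list_getElem?.comp (Primrec.fst.comp Primrec.fst)
        (Primrec.succ.comp (h2.comp Primrec.fst))) ?_
    exact (Primrec.dom_bool₂ op).comp (Primrec.snd.comp Primrec.fst) Primrec.snd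
  · intro s n b h
    obtain ⟨a, ha, h⟩ := Option.bind_eq_some_iff.1 h
    obtain ⟨c, hc, h⟩ := Option.map_eq_some_iff.1 h
    rw [← h, getElem?_pre_sound ha, getElem?_pre_sound hc, e₁, e₂]
  · intro n
    refine ⟨2 * n + 2, op (R292.jn x y (2 * n)) (R292.jn x y (2 * n + 1)), ?_⟩
    simp only [getElem?_pre_of_lt (R292.jn x y) (show 2 * n < 2 * n + 2 by omega),
      getElem?_pre_of_lt (R292.jn x y) (show 2 * n + 1 < 2 * n + 2 by omega), Option.bind_some,
      Option.map_some]

/-- Finite modifications. -/
theorem red_of_eq_ge {x y : C} (n : ℕ) (h : ∀ i, n ≤ i → x i = y i) : Red x y := by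
  refine red_of_pt (fun l i => if i < n then (pre x n)[i]? else l[i]?) ?_ ?_ ?_
  · refine Primrec₂.to_comp ?_
    exact Primrec.ite (Primrec.nat_lt.comp Primrec.snd (Primrec.const n))
      (Primrec.list_getElem?.comp (Primrec.const _) Primrec.snd)
      (Primrec.list_getElem?.comp Primrec.fst Primrec.snd)
  · intro s i b hb
    by_cases hi : i < n
    · simp only [if_pos hi] at hb
      exact getElem?_pre_sound hb
    · simp only [if_neg hi] at hb
      rw [h i (by omega)]
      exact getElem?_pre_sound hb
  · intro i
    by_cases hi : i < n
    · exact ⟨0, x i, by simp only [if_pos hi]; exact getElem?_pre_of_lt x hi⟩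
    · exact ⟨i + 1, y i, by simp only [if_neg hi]; exact getElem?_pre_of_lt y (by omega)⟩

theorem red_jn_left (x y : C) : Red x (jn x y) := by
  have h := red_reindex (jn x y) (a := fun n => 2 * n)
    (Primrec.nat_mul.comp (Primrec.const 2) Primrec.id).to_comp
  have e : (fun n => jn x y (2 * n)) = x := by
    funext n
    unfold jn
    rw [if_pos (by omega)]
    congr 1
    omega
  rwa [e] at h

theorem red_jn_right (x y : C) : Red y (jn x y) := by
  have h := red_reindex (jn x y) (a := fun n => 2 * n + 1)
    (Primrec.succ.comp (Primrec.nat_mul.comp (Primrec.const 2) Primrec.id)).to_comp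
  have e : (fun n => jn x y (2 * n + 1)) = y := by
    funext n
    unfold jn
    rw [if_neg (by omega)]
    congr 1
    omega
  rwa [e] at h

theorem red_col (n : ℕ) (y : C) : Red (col n y) y := by
  exact red_reindex y (a := fun m => Nat.pair n m)
    (Primrec₂.natPair.comp (Primrec.const n) Primrec.id).to_comp

theorem red_app (n : ℕ) (a x : C) : Red (app n a x) x := by
  refine (red_of_eq_ge (y := fun i => x (i - n)) n fun i hi => ?_).trans
    (red_reindex x (a := fun i => i - n) (Primrec.nat_sub.comp Primrec.id (Primrec.const n)).to_comp)
  unfold app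
  rw [if_neg (by omega)]

theorem red_of_app (n : ℕ) (a x : C) : Red x (app n a x) := by
  have h := red_reindex (app n a x) (a := fun i => i + n)
    (Primrec.nat_add.comp Primrec.id (Primrec.const n)).to_comp
  have e : (fun i => app n a x (i + n)) = x := by
    funext i
    unfold app
    rw [if_neg (by omega)]
    congr 1
    omega
  rwa [e] at h

theorem Red.xr {x y z : C} (hx : Red x z) (hy : Red y z) : Red (xr x y) z :=
  Red.op xor hx hy

theorem Red.an {x y z : C} (hx : Red x z) (hy : Red y z) : Red (an x y) z :=
  Red.op (fun a b => a && b) hx hy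

theorem Red.nt {x z : C} (hx : Red x z) : Red (nt x) z :=
  Red.op (fun a _ => !a) hx hx

theorem Red.gop {u v w y z : C} (hu : Red u z) (hv : Red v z) (hw : Red w z) (hy : Red y z) :
    Red (gop u v w y) z :=
  hu.xr (hy.an (hv.xr hw))

end Crest.Agent.R292
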