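import Crest.Prelude.Def_SetDegree
import Crest.Agent.R292.Pt

/-! Row 292: Turing reducibility in Mathlib's sense gives a list reduction (use principle). -/

set_option autoImplicit false
open Filter Topology
open Crest.LogicCS.Degrees

namespace Crest.Agent.R292

/-- `f` is simulated by a computable function of the prefixes of `y`. -/
def Sim (y : C) (f : ℕ →. ℕ) : Prop :=
  ∃ φ : List Bool → ℕ → Option ℕ, Computable₂ φ ∧
    (∀ s a b, φ (pre y s) a = some b → b ∈ f a) ∧
    ∀ a b, b ∈ f a → ∀ᶠ s in atTop, φ (pre y s) a = some b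

theorem sim_of_computable (y : C) {g : ℕ → ℕ} (hg : Computable g) :
    Sim y (fun n => Part.some (g n)) :=
  ⟨fun _ a => some (g a), Computable.option_some.comp (hg.comp Computable.snd),
    fun _ _ _ h => by simpa [eq_comm] using h,
    fun _ _ h => Eventually.of_forall fun _ => by simpa [eq_comm] using h⟩

theorem mem_charFun (y : C) (a b : ℕ) :
    b ∈ charFun {n | y n = true} a ↔ b = cond (y a) 1 0 := by
  by_cases h : y a = true
  · simp [charFun, Set.indicator, h]
  · simp [charFun, Set.indicator, h]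

theorem sim_oracle (y : C) : Sim y (charFun {n | y n = true}) := by
  have key := mem_charFun y
  refine ⟨fun l a => (l[a]?).map fun b => cond b 1 0, ?_, fun s a b h => ?_, fun a b h => ?_⟩
  · refine Computable.option_map
      (Primrec.list_getElem?.to_comp.comp Computable.fst Computable.snd) ?_
    exact (Computable.cond Computable.snd (Computable.const 1) (Computable.const 0)).to₂
  · rw [key]
    simp only [getElem?_pre] at h
    split_ifs at h
    · simpa [eq_comm] using h
    · simp at h
  · filter_upwards [eventually_gt_atTop a] with s hs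
    rw [key] at h
    simp only [getElem?_pre, if_pos hs, h, Option.map_some]

theorem Sim.pair {y : C} {f h : ℕ →. ℕ} (hf : Sim y f) (hh : Sim y h) :
    Sim y fun n => (Nat.pair <$> f n <*> h n) := by
  obtain ⟨φ, cφ, sφ, eφ⟩ := hf
  obtain ⟨ψ, cψ, sψ, eψ⟩ := hh
  have key : ∀ a b, b ∈ (Nat.pair <$> f a <*> h a) ↔ ∃ u ∈ f a, ∃ v ∈ h a, Nat.pair u v = b := by
    intro a b
    simp [Seq.seq]
  refine ⟨fun l a => (φ l a).bind fun u => (ψ l a).map fun v => Nat.pair u v, ?_,
    fun s a b hb => ?_, fun a b hb => ?_⟩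
  · have h1 : Computable fun q : ((List Bool × ℕ) × ℕ) × ℕ => Nat.pair q.1.2 q.2 :=
      Primrec₂.natPair.to_comp.comp (Computable.snd.comp Computable.fst) Computable.snd
    have h2 : Computable fun q : (List Bool × ℕ) × ℕ => ψ q.1.1 q.1.2 :=
      Computable.comp (g := fun q : (List Bool × ℕ) × ℕ => q.1) cψ Computable.fst
    have h3 : Computable fun q : (List Bool × ℕ) × ℕ =>
        (ψ q.1.1 q.1.2).map fun v => Nat.pair q.2 v :=
      Computable.option_map (g := fun (q : (List Bool × ℕ) × ℕ) v => Nat.pair q.2 v) h2 h1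
    exact Computable.option_bind (g := fun (q : List Bool × ℕ) u =>
      (ψ q.1 q.2).map fun v => Nat.pair u v) cφ h3
  · rw [key]
    simp only [Option.bind_eq_some_iff, Option.map_eq_some_iff] at hb
    obtain ⟨u, hu, v, hv, rfl⟩ := hb
    exact ⟨u, sφ _ _ _ hu, v, sψ _ _ _ hv, rfl⟩
  · obtain ⟨u, hu, v, hv, rfl⟩ := (key a b).1 hb
    filter_upwards [eφ _ _ hu, eψ _ _ hv] with s h1 h2
    simp [h1, h2]

theorem Sim.comp {y : C} {f h : ℕ →. ℕ} (hf : Sim y f) (hh : Sim y h) :
    Sim y fun n => h n >>= f := by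
  obtain ⟨φ, cφ, sφ, eφ⟩ := hf
  obtain ⟨ψ, cψ, sψ, eψ⟩ := hh
  refine ⟨fun l a => (ψ l a).bind fun u => φ l u, ?_, fun s a b hb => ?_, fun a b hb => ?_⟩
  · exact Computable.option_bind cψ
      (cφ.comp (Computable.fst.comp Computable.fst) Computable.snd).to₂
  · simp only [Option.bind_eq_some_iff] at hb
    obtain ⟨u, hu, hv⟩ := hb
    exact Part.mem_bind (sψ _ _ _ hu) (sφ _ _ _ hv)
  · obtain ⟨u, hu, hv⟩ := Part.mem_bind_iff.1 hb
    filter_upwards [eψ _ _ hu, eφ _ _ hv] with s h1 h2
    simp [h1, h2]

theorem Sim.prec {y : C} {f h : ℕ →. ℕ} (hf : Sim y f) (hh : Sim y h) :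
    Sim y fun p => Nat.rec (motive := fun _ => Part ℕ) (f p.unpair.1)
      (fun k IH => IH >>= fun i => h (Nat.pair p.unpair.1 (Nat.pair k i))) p.unpair.2 := by
  obtain ⟨φ, cφ, sφ, eφ⟩ := hf
  obtain ⟨ψ, cψ, sψ, eψ⟩ := hh
  refine ⟨fun l p => Nat.rec (motive := fun _ => Option ℕ) (φ l p.unpair.1)
    (fun k IH => IH.bind fun i => ψ l (Nat.pair p.unpair.1 (Nat.pair k i))) p.unpair.2, ?_,
    fun s p => ?_, fun p => ?_⟩
  · have h1 : Computable fun q : List Bool × ℕ => q.2.unpair.1 :=
      Computable.fst.comp (Computable.unpair.comp Computable.snd)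
    have h2 : Computable fun q : List Bool × ℕ => q.2.unpair.2 :=
      Computable.snd.comp (Computable.unpair.comp Computable.snd)
    refine Computable.nat_rec (h := fun (q : List Bool × ℕ) (r : ℕ × Option ℕ) =>
      r.2.bind fun i => ψ q.1 (Nat.pair q.2.unpair.1 (Nat.pair r.1 i))) h2
      (cφ.comp Computable.fst h1) ?_
    have h3 : Computable fun z : ((List Bool × ℕ) × ℕ × Option ℕ) × ℕ =>
        ψ z.1.1.1 (Nat.pair z.1.1.2.unpair.1 (Nat.pair z.1.2.1 z.2)) :=
      cψ.comp (Computable.fst.comp (Computable.fst.comp Computable.fst))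
        (Primrec₂.natPair.to_comp.comp (h1.comp (Computable.fst.comp Computable.fst))
          (Primrec₂.natPair.to_comp.comp
            (Computable.fst.comp (Computable.snd.comp Computable.fst)) Computable.snd))
    exact Computable.option_bind (g := fun (z : (List Bool × ℕ) × ℕ × Option ℕ) i =>
      ψ z.1.1 (Nat.pair z.1.2.unpair.1 (Nat.pair z.2.1 i)))
      (Computable.snd.comp Computable.snd) h3
  · beta_reduce
    generalize p.unpair.2 = n
    induction n with
    | zero => exact fun b hb => sφ _ _ _ hb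
    | succ n ih =>
      intro b hb
      simp only [Option.bind_eq_some_iff] at hb
      obtain ⟨u, hu, hv⟩ := hb
      exact Part.mem_bind (ih u hu) (sψ _ _ _ hv)
  · beta_reduce
    generalize p.unpair.2 = n
    induction n with
    | zero => exact fun b hb => eφ _ _ hb
    | succ n ih =>
      intro b hb
      obtain ⟨u, hu, hv⟩ := Part.mem_bind_iff.1 hb
      filter_upwards [ih u hu, eψ _ _ hv] with s h1 h2
      simp only [h1, Option.bind_some, h2]

/-- Bounded search: `none` = failure, `some 0` = nothing found yet, `some (m + 1)` = found `m`. -/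
def srch (g : ℕ → Option ℕ) (k : ℕ) : Option ℕ :=
  Nat.rec (motive := fun _ => Option ℕ) (some 0)
    (fun n st => st.bind fun o =>
      Nat.casesOn (motive := fun _ => Option ℕ) o
        ((g n).map fun v => cond (decide (v = 0)) (n + 1) 0) fun m => some (m + 1)) k

theorem srch_zero (g : ℕ → Option ℕ) : srch g 0 = some 0 := rfl

theorem srch_succ (g : ℕ → Option ℕ) (n : ℕ) : srch g (n + 1) = (srch g n).bind fun o =>
    Nat.casesOn (motive := fun _ => Option ℕ) o
      ((g n).map fun v => cond (decide (v = 0)) (n + 1) 0) fun m => some (m + 1) := rfl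

theorem srch_sound (g : ℕ → Option ℕ) (k : ℕ) :
    (srch g k = some 0 → ∀ n < k, ∃ v, g n = some v ∧ v ≠ 0) ∧
      ∀ m, srch g k = some (m + 1) → g m = some 0 ∧ ∀ n < m, ∃ v, g n = some v ∧ v ≠ 0 := by
  induction k with
  | zero => exact ⟨fun _ n hn => absurd hn (Nat.not_lt_zero n), fun m h => by
      simp [srch_zero] at h⟩
  | succ k ih =>
    rw [srch_succ]
    refine ⟨fun h => ?_, fun m h => ?_⟩
    · obtain ⟨o, ho, h⟩ := Option.bind_eq_some_iff.1 h
      cases o with
      | zero =>
        obtain ⟨v, hv, h⟩ := Option.map_eq_some_iff.1 h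
        intro n hn
        rcases Nat.lt_succ_iff_lt_or_eq.1 hn with hn | rfl
        · exact ih.1 ho n hn
        · refine ⟨v, hv, fun h0 => ?_⟩
          simp [h0] at h
      | succ o => simp at h
    · obtain ⟨o, ho, h⟩ := Option.bind_eq_some_iff.1 h
      cases o with
      | zero =>
        obtain ⟨v, hv, h⟩ := Option.map_eq_some_iff.1 h
        by_cases h0 : v = 0
        · subst h0
          have hk : k = m := by simpa using h
          subst hk
          exact ⟨hv, ih.1 ho⟩
        · simp [h0] at h
      | succ o =>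
        have hk : o = m := by simpa using h
        subst hk
        exact ih.2 o ho

theorem srch_le {g : ℕ → Option ℕ} {m : ℕ} (h : ∀ n < m, ∃ v, g n = some v ∧ v ≠ 0) {k : ℕ}
    (hk : k ≤ m) : srch g k = some 0 := by
  induction k with
  | zero => rfl
  | succ k ih =>
    obtain ⟨v, hv, h0⟩ := h k hk
    rw [srch_succ, ih (Nat.le_of_succ_le hk)]
    simp [hv, h0]

theorem srch_gt {g : ℕ → Option ℕ} {m : ℕ} (h : ∀ n < m, ∃ v, g n = some v ∧ v ≠ 0)
    (h0 : g m = some 0) {k : ℕ} (hk : m < k) : srch g k = some (m + 1) := by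
  induction k with
  | zero => exact absurd hk (Nat.not_lt_zero m)
  | succ k ih =>
    rcases Nat.lt_succ_iff_lt_or_eq.1 hk with hk | rfl
    · rw [srch_succ, ih hk]; rfl
    · rw [srch_succ, srch_le h le_rfl]
      simp [h0]

theorem Sim.rfind {y : C} {f : ℕ →. ℕ} (hf : Sim y f) :
    Sim y fun a => Nat.rfind fun n => (fun m => decide (m = 0)) <$> f (Nat.pair a n) := by
  obtain ⟨φ, cφ, sφ, eφ⟩ := hf
  have key : ∀ a b, b ∈ (Nat.rfind fun n => (fun m => decide (m = 0)) <$> f (Nat.pair a n)) ↔
      0 ∈ f (Nat.pair a b) ∧ ∀ n < b, ∃ v ∈ f (Nat.pair a n), v ≠ 0 := by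
    intro a b
    simp [Nat.mem_rfind]
  refine ⟨fun l a => (srch (fun n => φ l (Nat.pair a n)) l.length).bind fun o =>
    Nat.casesOn (motive := fun _ => Option ℕ) o none some, ?_, fun s a b hb => ?_,
    fun a b hb => ?_⟩
  · refine Computable.option_bind ?_
      (Computable.nat_casesOn Computable.snd (Computable.const none)
        (Computable.option_some.comp Computable.snd).to₂).to₂
    refine Computable.nat_rec (h := fun (q : List Bool × ℕ) (r : ℕ × Option ℕ) =>
      r.2.bind fun o => Nat.casesOn (motive := fun _ => Option ℕ) o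
        ((φ q.1 (Nat.pair q.2 r.1)).map fun v => cond (decide (v = 0)) (r.1 + 1) 0)
        fun m => some (m + 1))
      (Computable.list_length.comp Computable.fst) (Computable.const (some 0)) ?_
    have h0 : Computable fun v : ℕ => decide (v = 0) :=
      (Primrec.eq.comp Primrec.id (Primrec.const 0)).decide.to_comp
    have h1 : Computable fun z : ((List Bool × ℕ) × ℕ × Option ℕ) × ℕ =>
        cond (decide (z.2 = 0)) (z.1.2.1 + 1) 0 :=
      Computable.cond (h0.comp Computable.snd)
        (Computable.succ.comp (Computable.fst.comp (Computable.snd.comp Computable.fst)))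
        (Computable.const 0)
    have h2 : Computable fun z : (List Bool × ℕ) × ℕ × Option ℕ => φ z.1.1 (Nat.pair z.1.2 z.2.1) :=
      cφ.comp (Computable.fst.comp Computable.fst) (Primrec₂.natPair.to_comp.comp
        (Computable.snd.comp Computable.fst) (Computable.fst.comp Computable.snd))
    have h3 : Computable fun z : (List Bool × ℕ) × ℕ × Option ℕ =>
        (φ z.1.1 (Nat.pair z.1.2 z.2.1)).map fun v => cond (decide (v = 0)) (z.2.1 + 1) 0 :=
      Computable.option_map (g := fun (z : (List Bool × ℕ) × ℕ × Option ℕ) v =>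
        cond (decide (v = 0)) (z.2.1 + 1) 0) h2 h1
    have h4 : Computable fun z : (((List Bool × ℕ) × ℕ × Option ℕ) × ℕ) × ℕ => some (z.2 + 1) :=
      Computable.option_some.comp (Computable.succ.comp Computable.snd)
    have h5 : Computable fun z : ((List Bool × ℕ) × ℕ × Option ℕ) × ℕ =>
        Nat.casesOn (motive := fun _ => Option ℕ) z.2
          ((φ z.1.1.1 (Nat.pair z.1.1.2 z.1.2.1)).map fun v =>
            cond (decide (v = 0)) (z.1.2.1 + 1) 0) fun m => some (m + 1) :=
      Computable.nat_casesOn (h := fun _ m => some (m + 1)) Computable.snd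
        (h3.comp Computable.fst) h4
    exact Computable.option_bind (g := fun (z : (List Bool × ℕ) × ℕ × Option ℕ) o =>
      Nat.casesOn (motive := fun _ => Option ℕ) o
        ((φ z.1.1 (Nat.pair z.1.2 z.2.1)).map fun v => cond (decide (v = 0)) (z.2.1 + 1) 0)
        fun m => some (m + 1)) (Computable.snd.comp Computable.snd) h5
  · obtain ⟨o, ho, h⟩ := Option.bind_eq_some_iff.1 hb
    cases o with
    | zero => simp at h
    | succ o =>
      have hk : o = b := by simpa using h
      subst hk
      obtain ⟨h1, h2⟩ := (srch_sound _ _).2 o ho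
      refine (key a o).2 ⟨sφ _ _ _ h1, fun n hn => ?_⟩
      obtain ⟨v, hv, h0⟩ := h2 n hn
      exact ⟨v, sφ _ _ _ hv, h0⟩
  · obtain ⟨h1, h2⟩ := (key a b).1 hb
    have h3 : ∀ᶠ s in atTop, ∀ n ∈ Finset.range b,
        ∃ v, φ (pre y s) (Nat.pair a n) = some v ∧ v ≠ 0 := by
      rw [Filter.eventually_all_finset]
      intro n hn
      obtain ⟨v, hv, h0⟩ := h2 n (Finset.mem_range.1 hn)
      exact (eφ _ _ hv).mono fun s hs => ⟨v, hs, h0⟩
    filter_upwards [eφ _ _ h1, h3, eventually_gt_atTop b] with s e1 e2 e3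
    rw [length_pre, srch_gt (fun n hn => e2 n (Finset.mem_range.2 hn)) e1 e3]
    rfl

theorem sim_of_recursiveIn {y : C} {f : ℕ →. ℕ}
    (h : Nat.RecursiveIn {charFun {n | y n = true}} f) : Sim y f := by
  induction h with
  | zero => exact sim_of_computable y (Computable.const 0)
  | succ => exact sim_of_computable y Computable.succ
  | left => exact sim_of_computable y (Computable.fst.comp Computable.unpair)
  | right => exact sim_of_computable y (Computable.snd.comp Computable.unpair)
  | oracle g hg => rw [Set.mem_singleton_iff.1 hg]; exact sim_oracle y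
  | pair _ _ ihf ihh => exact ihf.pair ihh
  | comp _ _ ihf ihh => exact ihf.comp ihh
  | prec _ _ ihf ihh => exact ihf.prec ihh
  | rfind _ ihf => exact ihf.rfind

theorem red_of_turing {x y : C}
    (h : TuringReducible (charFun {n | x n = true}) (charFun {n | y n = true})) : Red x y := by
  obtain ⟨φ, cφ, sφ, eφ⟩ := sim_of_recursiveIn (RecursiveIn.iff_nat.1 h)
  have key := mem_charFun x
  refine red_of_pt (fun l n => (φ l n).map fun v => decide (v = 1)) ?_ (fun s n b hb => ?_)
    fun n => ?_
  · exact Computable.option_map cφ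
      ((Primrec.eq.comp Primrec.id (Primrec.const 1)).decide.to_comp.comp Computable.snd).to₂
  · obtain ⟨v, hv, rfl⟩ := Option.map_eq_some_iff.1 hb
    rw [(key _ _).1 (sφ _ _ _ hv)]
    cases x n <;> simp
  · obtain ⟨s, hs⟩ := (eφ n _ ((key n _).2 rfl)).exists
    exact ⟨s, _, by rw [hs]; rfl⟩

end Crest.Agent.R292
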