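import Crest.Prelude.Def_SetDegree
import Crest.Agent.R292.Basic

/-! Row 292: a list reduction gives Turing reducibility in Mathlib's sense. -/

set_option autoImplicit false
open Filter Topology
open Crest.LogicCS.Degrees

namespace Crest.Agent.R292

namespace BridgeB

/-- total functions recursive in `O` -/
def T (O : Set (ℕ →. ℕ)) (f : ℕ → ℕ) : Prop := Nat.RecursiveIn O (f : ℕ →. ℕ)

variable {O : Set (ℕ →. ℕ)} {f g : ℕ → ℕ}

theorem T.of_computable (hf : Computable f) : T O f :=
  (Partrec.nat_iff.1 hf.partrec).recursiveIn

theorem T.of_eq (hf : T O f) (h : ∀ n, f n = g n) : T O g := (funext h : f = g) ▸ hf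

theorem T.comp (hf : T O f) (hg : T O g) : T O fun n => f (g n) :=
  (Nat.RecursiveIn.comp hf hg).of_eq_tot fun n => by simp

theorem T.pair (hf : T O f) (hg : T O g) : T O fun n => Nat.pair (f n) (g n) :=
  (Nat.RecursiveIn.pair hf hg).of_eq_tot fun n => by simp [Seq.seq]

theorem T.prec (hf : T O f) (hg : T O g) : T O fun p =>
    Nat.rec (motive := fun _ => ℕ) (f p.unpair.1)
      (fun y i => g (Nat.pair p.unpair.1 (Nat.pair y i))) p.unpair.2 :=
  (Nat.RecursiveIn.prec hf hg).of_eq_tot fun p => by
    generalize Nat.unpair p = q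
    obtain ⟨a, n⟩ := q
    induction n with
    | zero => simp
    | succ n ih =>
      simp only [Part.bind_eq_bind, Part.mem_bind_iff, PFun.coe_val, Part.mem_some_iff] at ih ⊢
      exact ⟨_, ih, rfl⟩

theorem T.rfind (hf : T O f) (h : ∀ a, ∃ n, f (Nat.pair a n) = 0) :
    T O fun a => Nat.find (h a) :=
  (Nat.RecursiveIn.rfind hf).of_eq_tot fun a => by
    rw [Nat.mem_rfind]
    refine ⟨by simpa using Nat.find_spec (h a), fun {m} hm => ?_⟩
    simpa using Nat.find_min (h a) hm

/-- decoding lists -/
def dec (n : ℕ) : List Bool := (Encodable.decode n).getD []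

theorem dec_encode (l : List Bool) : dec (Encodable.encode l) = l := by simp [dec]

theorem primrec_dec : Primrec dec := Primrec.option_getD.comp Primrec.decode (Primrec.const [])

theorem primrec_l : Primrec fun q : ℕ => q.unpair.1 := Primrec.fst.comp Primrec.unpair

theorem primrec_r : Primrec fun q : ℕ => q.unpair.2 := Primrec.snd.comp Primrec.unpair

theorem pre_succ (y : C) (s : ℕ) : pre y (s + 1) = pre y s ++ [y s] := by
  simp [pre, List.range_succ]

theorem T.pre {y : C} (hy : T O fun n => cond (y n) 1 0) :
    T O fun s => Encodable.encode (pre y s) := by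
  have hH : Primrec fun q : ℕ =>
      Encodable.encode (dec q.unpair.1 ++ [decide (q.unpair.2 = 1)]) :=
    Primrec.encode.comp (Primrec.list_concat.comp (primrec_dec.comp primrec_l)
      (Primrec.eq.comp primrec_r (Primrec.const 1)).decide)
  have h1 := (T.of_computable hH.to_comp).comp
    ((T.of_computable (O := O) (primrec_r.comp primrec_r).to_comp).pair
      (hy.comp (T.of_computable (primrec_l.comp primrec_r).to_comp)))
  have h2 := ((T.of_computable (O := O)
    (Computable.const (Encodable.encode ([] : List Bool)))).prec h1).comp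
    (T.of_computable (Primrec₂.natPair.comp (Primrec.const 0) Primrec.id).to_comp)
  refine h2.of_eq fun s => ?_
  simp only [Nat.unpair_pair, id]
  induction s with
  | zero => rfl
  | succ s ih =>
    simp only [ih, dec_encode, pre_succ]
    cases y s <;> rfl

theorem charFun_eq (x : C) :
    charFun {n | x n = true} = ((fun n => cond (x n) 1 0 : ℕ → ℕ) : ℕ →. ℕ) := by
  funext n
  cases h : x n <;> simp [charFun, h]

end BridgeB

open BridgeB in
theorem turing_of_red {x y : C} (h : Red x y) :
    TuringReducible (charFun {n | x n = true}) (charFun {n | y n = true}) := by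
  obtain ⟨f, hf, h⟩ := h
  rw [TuringReducible, RecursiveIn.iff_nat, charFun_eq x]
  generalize hO : ({charFun {n | y n = true}} : Set (ℕ →. ℕ)) = O
  have hy : T O fun n => cond (y n) 1 0 :=
    Nat.RecursiveIn.oracle _ (by rw [← hO, charFun_eq y]; rfl)
  -- the output list at stage `s`
  have hF : T O fun s => Encodable.encode (f (pre y s)) :=
    ((T.of_computable (Computable.encode.comp (hf.comp primrec_dec.to_comp))).comp
      hy.pre).of_eq fun s => by rw [dec_encode]
  have hG0 : Primrec fun q : ℕ => if q.unpair.1 < (dec q.unpair.2).length then 0 else 1 :=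
    Primrec.ite (Primrec.nat_lt.comp primrec_l
      (Primrec.list_length.comp (primrec_dec.comp primrec_r))) (Primrec.const 0) (Primrec.const 1)
  have hG : T O fun q => if q.unpair.1 < (f (pre y q.unpair.2)).length then 0 else 1 :=
    ((T.of_computable hG0.to_comp).comp ((T.of_computable primrec_l.to_comp).pair
      (hF.comp (T.of_computable primrec_r.to_comp)))).of_eq fun q => by
        simp only [Nat.unpair_pair, dec_encode]
  have hex : ∀ a, ∃ n, (fun q : ℕ =>
      if q.unpair.1 < (f (pre y q.unpair.2)).length then 0 else 1) (Nat.pair a n) = 0 := by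
    intro a
    obtain ⟨s, hs⟩ := (h.2.eventually (eventually_gt_atTop a)).exists
    exact ⟨s, by simpa using hs⟩
  have hS := hG.rfind hex
  have hK0 : Primrec fun q : ℕ => cond ((dec q.unpair.2).getD q.unpair.1 false) 1 0 :=
    Primrec.cond ((Primrec.list_getD false).comp (primrec_dec.comp primrec_r) primrec_l)
      (Primrec.const 1) (Primrec.const 0)
  refine ((T.of_computable hK0.to_comp).comp ((T.of_computable Computable.id).pair
    (hF.comp hS))).of_eq fun n => ?_
  have h0 := Nat.find_spec (hex n)
  generalize Nat.find (hex n) = s at h0 ⊢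
  have h1 : n < (f (pre y s)).length := by simpa using h0
  have h2 := Appr.getElem? h s n
  simp only [if_pos h1] at h2
  simp only [Nat.unpair_pair, dec_encode, id, List.getD_eq_getElem?_getD, h2, Option.getD_some]

end Crest.Agent.R292
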