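import Crest.Agent.R292.Baire

/-! Row 292: every real is the sum of two members of a comeager set, uniformly. -/

set_option autoImplicit false
open Filter Topology

namespace Crest.Agent.R292

theorem chop_open {U : Set C} (ho : IsOpen U) (hd : Dense U) :
    ∀ᶠ p in residual (C × C), ∀ Z, xr p.1 (an p.2 Z) ∈ U := by
  have hU : U ∈ residual C := residual_of_dense_open ho hd
  refine mem_of_superset (residual_of_dense_open isOpen_interior ?_) interior_subset
  rw [dense_iff_inter_open]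
  rintro W hW ⟨⟨w, m⟩, hp⟩
  obtain ⟨A, hA, B, hB, hAB⟩ := mem_nhds_prod_iff.1 (hW.mem_nhds hp)
  obtain ⟨n1, h1⟩ := exists_cyl_subset hA
  obtain ⟨n2, h2⟩ := exists_cyl_subset hB
  obtain ⟨n, hn1, hn2⟩ : ∃ n, n1 ≤ n ∧ n2 ≤ n := ⟨max n1 n2, le_max_left _ _, le_max_right _ _⟩
  let δ : (Fin n → Bool) → C := fun d i => if h : i < n then d ⟨i, h⟩ else false
  have h3 : ∀ᶠ x in residual C, ∀ d, xr x (δ d) ∈ U :=
    eventually_all.2 fun d => tendsto_xr_left (δ d) hU
  obtain ⟨w', hw, hw'⟩ := exists_in_cyl h3 n w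
  choose N hN using fun d => exists_cyl_subset (ho.mem_nhds (hw' d))
  obtain ⟨M, hM⟩ := (Set.finite_range N).bddAbove
  let m' : C := fun i => if i < n then m i else false
  refine ⟨(w', m'), hAB ⟨h1 _ fun i hi => hw i (by omega), h2 _ fun i hi => ?_⟩, ?_⟩
  · simp [m', show i < n by omega]
  · refine mem_interior.2 ⟨{x : C | ∀ i < M, x i = w' i} ×ˢ {x : C | ∀ i < M, x i = m' i}, ?_,
      (isOpen_cyl M w').prod (isOpen_cyl M m'), fun _ _ => rfl, fun _ _ => rfl⟩
    rintro ⟨a, b⟩ ⟨ha, hb⟩ Z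
    refine hN (fun i => (m i && Z i)) _ fun i hi => ?_
    have hi' : i < M := hi.trans_le (hM ⟨_, rfl⟩)
    have ea : a i = w' i := ha i hi'
    have eb : b i = m' i := hb i hi'
    simp only [xr, an, ea, eb, m', δ]
    split_ifs <;> simp

theorem chop_res {P : C → Prop} (h : ∀ᶠ x in residual C, P x) :
    ∀ᶠ p in residual (C × C), ∀ Z, P (xr p.1 (an p.2 Z)) := by
  obtain ⟨S, h1, h2, h3, h4⟩ := mem_residual_iff.1 h
  have : ∀ᶠ p in residual (C × C), ∀ U ∈ S, ∀ Z, xr p.1 (an p.2 Z) ∈ U :=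
    (eventually_countable_ball h3).2 fun U hU => chop_open (h1 U hU) (h2 U hU)
  exact this.mono fun p hp Z => h4 fun U hU => hp U hU Z

theorem chop {P : C → Prop} (h : ∀ᶠ x in residual C, P x) :
    ∃ w m : C, ∀ Z, P (xr w (an m Z)) ∧ P (xr w (an (nt m) Z)) := by
  have hc : Continuous fun p : C × C => (p.1, nt p.2) :=
    continuous_fst.prodMk (continuous_pi fun i =>
      (continuous_of_discreteTopology (f := fun b : Bool => !b)).comp
        ((continuous_apply i).comp continuous_snd))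
  have hi : Function.Involutive fun p : C × C => (p.1, nt p.2) := by
    rintro ⟨a, b⟩
    simp only [Prod.mk.injEq, true_and]
    funext i
    simp [nt]
  let e : C × C ≃ₜ C × C := ⟨hi.toPerm _, hc, hc⟩
  have h1 := chop_res h
  have h2 := tendsto_residual_of_isOpenMap e.continuous e.isOpenMap h1
  obtain ⟨p, hp⟩ := (dense_of_mem_residual (inter_mem h1 h2)).nonempty
  exact ⟨p.1, p.2, fun Z => ⟨hp.1 Z, hp.2 Z⟩⟩

end Crest.Agent.R292
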