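import Crest.Agent.R292.Basic

/-! Row 292: countability and measurability. -/

set_option autoImplicit false
open Filter Topology

namespace Crest.Agent.R292

instance countable_CF : Countable CF := by
  have h : ∀ f : CF, ∃ c : Nat.Partrec.Code, c.eval = fun n =>
      Part.bind (Encodable.decode (α := List Bool) n) fun a =>
        ((f.1 : List Bool →. List Bool) a).map Encodable.encode :=
    fun f => Nat.Partrec.Code.exists_code.1 f.2
  choose c hc using h
  refine Function.Injective.countable (f := c) fun f g hfg => ?_
  have e := (hc f).symm.trans (hfg ▸ hc g)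
  refine Subtype.ext (funext fun l => ?_)
  have := congrFun e (Encodable.encode l)
  simpa using this

theorem countable_red (t : C) : {x | Red x t}.Countable := by
  refine (Set.countable_range fun f : CF => lim f.1 t).mono ?_
  rintro x ⟨f, hf, h⟩
  exact ⟨⟨f, hf⟩, h.lim_eq⟩

theorem measurableSet_pre_eq {X : Type} [MeasurableSpace X] {a : X → C} (ha : Measurable a)
    (s : ℕ) (l : List Bool) : MeasurableSet {q | pre (a q) s = l} := by
  have h₁ : Measurable fun q => fun i : Fin s => a q i :=
    measurable_pi_iff.2 fun i => (measurable_pi_apply (i : ℕ)).comp ha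
  have h₂ : MeasurableSet {v : Fin s → Bool | List.ofFn v = l} := (Set.toFinite _).measurableSet
  have e : {q | pre (a q) s = l} =
      (fun q => fun i : Fin s => a q i) ⁻¹' {v : Fin s → Bool | List.ofFn v = l} := by
    ext q
    have : pre (a q) s = List.ofFn fun i : Fin s => a q i := by
      unfold pre
      refine List.ext_getElem (by simp) fun i _ _ => by simp
    simp only [Set.mem_ofPred_eq, Set.mem_preimage, this]
  rw [e]
  exact h₁ h₂

theorem measurableSet_pre_prop {X : Type} [MeasurableSpace X] {a : X → C} (ha : Measurable a)
    (s : ℕ) {P : X → List Bool → Prop} (hP : ∀ l, MeasurableSet {q | P q l}) :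
    MeasurableSet {q | P q (pre (a q) s)} := by
  have e : {q | P q (pre (a q) s)} = ⋃ l, {q | pre (a q) s = l} ∩ {q | P q l} := by
    ext q
    simp
  rw [e]
  exact MeasurableSet.iUnion fun l => (measurableSet_pre_eq ha s l).inter (hP l)

theorem measurableSet_conv {X : Type} [MeasurableSpace X] (f : List Bool → List Bool)
    {a b : X → C} (ha : Measurable a) (hb : Measurable b) :
    MeasurableSet {q | Conv f (a q) (b q)} := by
  have e : {q | Conv f (a q) (b q)} =
      (⋂ s, {q | pre (b q) (f (pre (a q) s)).length = f (pre (a q) s)}) ∩
        ⋂ N : ℕ, ⋃ M : ℕ, ⋂ s : ℕ, {q | M ≤ s → N ≤ (f (pre (a q) s)).length} := by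
    ext q
    simp only [Conv, Appr, tendsto_atTop_atTop, Set.mem_ofPred_eq, Set.mem_inter_iff,
      Set.mem_iInter, Set.mem_iUnion]
    exact and_congr (forall_congr' fun s => eq_comm) Iff.rfl
  rw [e]
  refine MeasurableSet.inter (MeasurableSet.iInter fun s => ?_)
    (MeasurableSet.iInter fun N => MeasurableSet.iUnion fun M => MeasurableSet.iInter fun s => ?_)
  · exact measurableSet_pre_prop ha s (P := fun q l => pre (b q) (f l).length = f l)
      fun l => measurableSet_pre_eq hb _ _
  · exact measurableSet_pre_prop ha s (P := fun _ l => M ≤ s → N ≤ (f l).length)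
      fun l => MeasurableSet.const _

theorem measurableSet_red {X : Type} [MeasurableSpace X] {a b : X → C} (ha : Measurable a)
    (hb : Measurable b) : MeasurableSet {q | Red (a q) (b q)} := by
  have e : {q | Red (a q) (b q)} = ⋃ f : CF, {q | Conv f.1 (b q) (a q)} := by
    ext q
    simp only [Red, Set.mem_ofPred_eq, Set.mem_iUnion]
    exact ⟨fun ⟨f, hf, h⟩ => ⟨⟨f, hf⟩, h⟩, fun ⟨f, h⟩ => ⟨f.1, f.2, h⟩⟩
  rw [e]
  exact MeasurableSet.iUnion fun f => measurableSet_conv f.1 hb ha

open Classical in
theorem measurable_decide_aux {X : Type} [MeasurableSpace X] {P : X → Prop}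
    (hP : MeasurableSet {q | P q}) : Measurable (fun q => decide (P q)) := by
  refine measurable_to_bool ?_
  convert hP using 1
  ext q
  simp

theorem measurable_lim (f : List Bool → List Bool) : Measurable (lim f) := by
  refine measurable_pi_iff.2 fun i => measurable_decide_aux ?_
  rw [Set.ofPred_exists]
  exact MeasurableSet.iUnion fun s =>
    measurableSet_pre_prop measurable_id s (P := fun _ l => (f l)[i]? = some true)
      fun l => MeasurableSet.const _

theorem measurable_jn {X : Type} [MeasurableSpace X] {a b : X → C} (ha : Measurable a)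
    (hb : Measurable b) : Measurable fun q => jn (a q) (b q) := by
  refine measurable_pi_iff.2 fun n => ?_
  unfold jn
  split_ifs
  · exact (measurable_pi_apply _).comp ha
  · exact (measurable_pi_apply _).comp hb

theorem measurable_xr {X : Type} [MeasurableSpace X] {a b : X → C} (ha : Measurable a)
    (hb : Measurable b) : Measurable fun q => xr (a q) (b q) := by
  refine measurable_pi_iff.2 fun n => ?_
  exact (measurable_of_finite fun p : Bool × Bool => xor p.1 p.2).comp
    (((measurable_pi_apply n).comp ha).prodMk ((measurable_pi_apply n).comp hb))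

theorem measurable_an {X : Type} [MeasurableSpace X] {a b : X → C} (ha : Measurable a)
    (hb : Measurable b) : Measurable fun q => an (a q) (b q) := by
  refine measurable_pi_iff.2 fun n => ?_
  exact (measurable_of_finite fun p : Bool × Bool => (p.1 && p.2)).comp
    (((measurable_pi_apply n).comp ha).prodMk ((measurable_pi_apply n).comp hb))

theorem measurable_nt : Measurable nt := by
  refine measurable_pi_iff.2 fun n => ?_
  exact (measurable_of_finite fun p : Bool => !p).comp (measurable_pi_apply n)

theorem measurable_gop {X : Type} [MeasurableSpace X] {a b c d : X → C} (ha : Measurable a)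
    (hb : Measurable b) (hc : Measurable c) (hd : Measurable d) :
    Measurable fun q => gop (a q) (b q) (c q) (d q) :=
  measurable_xr ha (measurable_an hd (measurable_xr hb hc))

theorem measurable_col (n : ℕ) : Measurable (col n) :=
  measurable_pi_iff.2 fun m => measurable_pi_apply (Nat.pair n m)

theorem measurable_app (n : ℕ) (a : C) : Measurable (app n a) := by
  refine measurable_pi_iff.2 fun i => ?_
  unfold app
  split_ifs
  · exact measurable_const
  · exact measurable_pi_apply _

theorem measurableSet_eq_C {X : Type} [MeasurableSpace X] {a b : X → C} (ha : Measurable a)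
    (hb : Measurable b) : MeasurableSet {q | a q = b q} := by
  have e : {q | a q = b q} = ⋂ n, {q | a q n = b q n} := by
    ext q
    simp only [Set.mem_ofPred_eq, Set.mem_iInter, funext_iff]
  rw [e]
  exact MeasurableSet.iInter fun n =>
    measurableSet_eq_fun ((measurable_pi_apply n).comp ha) ((measurable_pi_apply n).comp hb)

open Classical in
theorem measurable_decide {X : Type} [MeasurableSpace X] {P : X → ℕ → Prop}
    (hP : ∀ n, MeasurableSet {q | P q n}) :
    Measurable (fun q => (fun n => decide (P q n) : C)) :=
  measurable_pi_iff.2 fun n => measurable_decide_aux (hP n)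

end Crest.Agent.R292
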