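import Crest.Agent.R292.Pt
import Crest.Agent.R292.Meas
import Crest.Agent.R292.Baire

/-! Row 292: cone avoidance for generics. -/

set_option autoImplicit false
open Filter Topology

namespace Crest.Agent.R292

theorem cone_pre_app (n : ℕ) (a : C) (τ : List Bool) (x : C) :
    pre (app n a (app τ.length (fun j => τ.getD j false) x)) (n + τ.length) = pre a n ++ τ := by
  apply List.ext_getElem?
  intro i
  rw [getElem?_pre]
  by_cases h1 : i < n
  · rw [if_pos (by omega), List.getElem?_append_left (by rw [length_pre]; exact h1), getElem?_pre,
      if_pos h1]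
    simp [app, h1]
  · rw [List.getElem?_append_right (by rw [length_pre]; omega), length_pre]
    by_cases h2 : i - n < τ.length
    · rw [if_pos (by omega)]
      simp [app, h1, h2, List.getD_eq_getElem?_getD]
    · rw [if_neg (by omega), List.getElem?_eq_none (by omega)]

theorem cone_pre_drop (n k : ℕ) (hk : n ≤ k) (a y : C) :
    pre a n ++ (pre (app n a y) k).drop n = pre (app n a y) k := by
  have : pre a n = (pre (app n a y) k).take n := by
    apply List.ext_getElem?
    intro i
    rw [getElem?_pre, List.getElem?_take]
    by_cases h1 : i < n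
    · rw [if_pos h1, if_pos h1, getElem?_pre, if_pos (by omega)]
      simp [app, h1]
    · rw [if_neg h1, if_neg h1]
  rw [this, List.take_append_drop]

theorem cone_red {v t a : C} {n : ℕ} {f : List Bool → List Bool} (hf : Computable f)
    (key : ∀ m b, ∃ x, Conv f (jn t (app n a (app m b x))) v) : Red v t := by
  let τ : ℕ → List Bool := fun s => (Encodable.decode s.unpair.1 : Option (List Bool)).getD []
  have hτ : Computable τ :=
    Computable.option_getD (Computable.decode.comp (Primrec.fst.comp Primrec.unpair).to_comp)
      (Computable.const [])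
  refine red_of_pt (fun l i => (f (jnL l (pre a n ++ τ l.length)))[i]?) ?_ ?_ ?_
  · refine Computable.list_getElem?.comp (hf.comp (computable_jnL.comp Computable.fst ?_))
      Computable.snd
    exact Computable.list_append.comp (Computable.const _)
      (hτ.comp (Computable.list_length.comp Computable.fst))
  · intro s i bb hb
    simp only [length_pre] at hb
    obtain ⟨x, hx⟩ := key (τ s).length (fun j => (τ s).getD j false)
    rw [← cone_pre_app n a (τ s) x, jnL_pre] at hb
    have h1 := Appr.getElem? hx (2 * min s (n + (τ s).length)) i
    rw [hb] at h1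
    split_ifs at h1
    exact Option.some.inj h1
  · intro i
    obtain ⟨x, hx⟩ := key 0 zr
    obtain ⟨K, hK⟩ := eventually_atTop.1 (hx.2.eventually (eventually_gt_atTop i))
    set y := app 0 zr x with hy
    let k := max K n
    let s := Nat.pair (Encodable.encode ((pre (app n a y) k).drop n)) k
    have hs : k ≤ s := Nat.right_le_pair _ _
    have hτs : τ s = (pre (app n a y) k).drop n := by
      simp [τ, s, Nat.unpair_pair, Encodable.encodek]
    refine ⟨s, v i, ?_⟩
    simp only [length_pre]
    rw [hτs, cone_pre_drop n k (le_max_right _ _), jnL_pre, min_eq_right hs]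
    have h1 := Appr.getElem? hx (2 * k) i
    have h2 := hK (2 * k) (by have : K ≤ k := le_max_left _ _; omega)
    simp only at h1 h2
    rw [if_pos h2] at h1
    exact h1

theorem cone_avoid {v t : C} (h : ¬ Red v t) : ∀ᶠ g in residual C, ¬ Red v (jn t g) := by
  by_contra hc
  have h1 : ∃ᶠ g in residual C, ∃ f : CF, Conv f.1 (jn t g) v := by
    refine (Filter.not_eventually.1 hc).mono fun g hg => ?_
    obtain ⟨f, hf, hfg⟩ := not_not.1 hg
    exact ⟨⟨f, hf⟩, hfg⟩
  obtain ⟨f, hf⟩ := freq_exists h1
  obtain ⟨n, a, hna⟩ := loc2 hf
  exact h (cone_red f.2 fun m b => (hna m b).exists)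

end Crest.Agent.R292
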