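import Mathlib

/-!
Row 292 (rigidity of the Turing degrees): definitions.
`C` is Cantor space.  A reduction is a computable map on finite lists which sends longer and longer
prefixes of the oracle to longer and longer prefixes of the output.
-/

set_option autoImplicit false
open Filter Topology

namespace Crest.Agent.R292

/-- Cantor space. -/
abbrev C : Type := ℕ → Bool

/-- The prefix of length `s`. -/
def pre (y : C) (s : ℕ) : List Bool := (List.range s).map y

/-- `l s` are prefixes of `x` whose lengths tend to infinity. -/
def Appr (l : ℕ → List Bool) (x : C) : Prop :=
  (∀ s, l s = pre x (l s).length) ∧ Tendsto (fun s => (l s).length) atTop atTop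

/-- The list map `f` with oracle `y` converges to `x`. -/
def Conv (f : List Bool → List Bool) (y x : C) : Prop := Appr (fun s => f (pre y s)) x

/-- `x` is Turing reducible to `y`. -/
def Red (x y : C) : Prop := ∃ f : List Bool → List Bool, Computable f ∧ Conv f y x

/-- Computable list maps. -/
abbrev CF : Type := {f : List Bool → List Bool // Computable f}

/-- The join. -/
def jn (x y : C) : C := fun n => if n % 2 = 0 then x (n / 2) else y (n / 2)

/-- The join on finite lists. -/
def jnL (l m : List Bool) : List Bool :=
  (List.range (2 * min l.length m.length)).map fun n =>
    if n % 2 = 0 then l.getD (n / 2) false else m.getD (n / 2) false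

open Classical in
/-- The output of `f` on oracle `y` (when it converges). -/
noncomputable def lim (f : List Bool → List Bool) (y : C) : C :=
  fun i => decide (∃ s, (f (pre y s))[i]? = some true)

/-- The `n`-th column. -/
def col (n : ℕ) (y : C) : C := fun m => y (Nat.pair n m)

/-- The first `n` bits of `a` followed by `x`. -/
def app (n : ℕ) (a x : C) : C := fun i => if i < n then a i else x (i - n)

/-- Pointwise xor. -/
def xr (x y : C) : C := fun i => xor (x i) (y i)

/-- Pointwise and. -/
def an (x y : C) : C := fun i => (x i && y i)

/-- Pointwise not. -/
def nt (y : C) : C := fun i => !(y i)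

/-- The `n`-th unit vector. -/
def ev (n : ℕ) : C := fun i => decide (i = n)

/-- The zero vector. -/
def zr : C := fun _ => false

/-- The coordinatewise idempotent operation `u + y (v + w)`. -/
def gop (u v w y : C) : C := xr u (an y (xr v w))

/-- A four-argument list map converges on all approximations of the four oracles. -/
def Conv4 (ψ : List Bool × List Bool × List Bool × List Bool → List Bool) (a b c d x : C) : Prop :=
  ∀ la lb lc ld : ℕ → List Bool, Appr la a → Appr lb b → Appr lc c → Appr ld d →
    Appr (fun s => ψ (la s, lb s, lc s, ld s)) x

/-- `p` represents an automorphism of the degrees. -/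
structure Aut (p : C → C) : Prop where
  iff : ∀ x y, Red (p x) (p y) ↔ Red x y
  surj : ∀ z, ∃ x, Red z (p x) ∧ Red (p x) z

end Crest.Agent.R292
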