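import Crest.Agent.R292.Step5
import Crest.Agent.R292.BridgeA
import Crest.Agent.R292.BridgeB

/-! Row 292: transfer to the degree structure. -/

set_option autoImplicit false
open Filter Topology
open Crest.LogicCS.Degrees

namespace Crest.Agent.R292

/-- The degree of a point of Cantor space. -/
noncomputable def deg (x : C) : SetDegree := ⟨degOf {n | x n = true}, ⟨_, rfl⟩⟩

theorem deg_le_iff (x y : C) : deg x ≤ deg y ↔ Red x y :=
  ⟨fun h => red_of_turing h, fun h => turing_of_red h⟩

open Classical in
theorem deg_surj (d : SetDegree) : ∃ x, deg x = d := by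
  obtain ⟨d, A, rfl⟩ := d
  refine ⟨fun n => decide (n ∈ A), Subtype.ext ?_⟩
  simp only [deg, decide_eq_true_eq]
  rfl

theorem le_apply (π : SetDegree ≃o SetDegree) (d : SetDegree) : d ≤ π d := by
  choose p hp using fun x => deg_surj (π (deg x))
  have hA : Aut p := by
    refine ⟨fun x y => ?_, fun z => ?_⟩
    · rw [← deg_le_iff, ← deg_le_iff, hp, hp, π.le_iff_le]
    · obtain ⟨x, hx⟩ := deg_surj (π.symm (deg z))
      refine ⟨x, ?_, ?_⟩ <;> rw [← deg_le_iff, hp, hx, π.apply_symm_apply]
  obtain ⟨x, rfl⟩ := deg_surj d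
  rw [← hp, deg_le_iff]
  exact hA.red_self x

theorem rigid (π : SetDegree ≃o SetDegree) : π = OrderIso.refl SetDegree := by
  refine OrderIso.ext (funext fun d => ?_)
  refine le_antisymm ?_ (le_apply π d)
  have := π.monotone (le_apply π.symm d)
  rwa [π.apply_symm_apply] at this

end Crest.Agent.R292
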