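import Crest.Agent.R292.KU

/-! Row 292: a product of everywhere nonmeager sets is nonmeager. -/

set_option autoImplicit false
open Filter Topology

namespace Crest.Agent.R292

namespace FusionAux

/-- The first `n` columns of `Y`, the other columns of `Z`. -/
def merge (n : ℕ) (Y Z : C) : C := fun k => if (Nat.unpair k).1 < n then Y k else Z k

/-- Replace the `n`-th column. -/
def setcol (n : ℕ) (y Z : C) : C := fun k => if (Nat.unpair k).1 = n then y (Nat.unpair k).2 else Z k

theorem tendsto_setcol (n : ℕ) :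
    Tendsto (fun q : C × C => setcol n q.1 q.2) (residual _) (residual C) := by
  refine tendsto_residual_of_isOpenMap (continuous_pi fun k => ?_) (IsOpenMap.of_sections ?_)
  · unfold setcol
    split_ifs <;> fun_prop
  · rintro ⟨y, Z⟩
    refine ⟨fun W => (col n W, fun k => if (Nat.unpair k).1 = n then Z k else W k), ?_, ?_, ?_⟩
    · refine (Continuous.prodMk (continuous_pi fun k => ?_) (continuous_pi fun k => ?_)).continuousAt
      · unfold col; fun_prop
      · split_ifs <;> fun_prop
    · refine Prod.ext (funext fun k => ?_) (funext fun k => ?_)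
      · simp [col, setcol]
      · by_cases h : (Nat.unpair k).1 = n <;> simp [setcol, h]
    · intro W
      funext k
      by_cases h : (Nat.unpair k).1 = n
      · simp only [setcol, h, if_true, col]
        rw [← h, Nat.pair_unpair]
      · simp [setcol, h]

theorem step {E : C → Prop} (hE : ∀ m b, ∃ᶠ x in residual C, E (app m b x)) {G U : Set C}
    (hU : IsOpen U) (hGU : G ⊆ U) (n : ℕ) (p : C × ℕ) (h : ∀ᶠ Z in residual C, merge n p.1 Z ∈ G) :
    ∃ p' : C × ℕ, (∀ᶠ Z in residual C, merge (n + 1) p'.1 Z ∈ G) ∧ p.2 ≤ p'.2 ∧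
      (∀ k, k < p.2 ∨ (Nat.unpair k).1 < n → p'.1 k = p.1 k) ∧ E (col n p'.1) ∧
      ∀ x : C, (∀ i < p'.2, x i = p'.1 i) → x ∈ U := by
  obtain ⟨Y, L⟩ := p
  have h1 := ku1 (P := fun y Z => merge n Y (setcol n y Z) ∈ G) ((tendsto_setcol n).eventually h)
  obtain ⟨x, hx1, hx2⟩ :=
    ((hE L (col n Y)).and_eventually ((tendsto_app L (col n Y)).eventually h1)).exists
  obtain ⟨Z, hZ1, hZ2⟩ := exists_in_cyl hx2 L Y
  obtain ⟨L', hL'⟩ := exists_cyl_subset (hU.mem_nhds (hGU hZ2))
  refine ⟨(merge n Y (setcol n (app L (col n Y) x) Z), max L L'), ?_, le_max_left _ _, ?_, ?_,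
    fun w hw => hL' w fun i hi => hw i (hi.trans_le (le_max_right _ _))⟩
  · refine hx2.mono fun W hW => ?_
    convert hW using 1
    funext k
    rcases lt_trichotomy (Nat.unpair k).1 n with h | h | h
    · simp [merge, h, h.le]
    · simp [merge, setcol, h]
    · simp [merge, setcol, h.ne', h.not_gt, h.not_ge]
  · intro k hk
    by_cases h1 : (Nat.unpair k).1 < n
    · simp [merge, h1]
    · have hk' : k < L := hk.resolve_right h1
      by_cases h2 : (Nat.unpair k).1 = n
      · have h3 : (Nat.unpair k).2 < L := (Nat.unpair_right_le k).trans_lt hk'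
        simp only [merge, setcol, h2, lt_irrefl, if_false, if_true, app, h3, col]
        rw [← h2, Nat.pair_unpair]
      · simp [merge, setcol, h1, h2, hZ1 k hk']
  · convert hx1 using 1
    funext k
    simp [col, merge, setcol]

end FusionAux

open FusionAux in
theorem fusion {E : ℕ → C → Prop} (hE : ∀ n m b, ∃ᶠ x in residual C, E n (app m b x)) :
    ∃ᶠ y in residual C, ∀ n, E n (col n y) := by
  refine frequently_iff.2 fun {G} hG => ?_
  obtain ⟨S, hSo, hSd, hSc, hSG⟩ := mem_residual_iff.1 hG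
  obtain ⟨U, hU⟩ := (hSc.insert Set.univ).exists_eq_range (Set.insert_nonempty _ _)
  have hUm : ∀ n, U n ∈ insert Set.univ S := fun n => hU ▸ Set.mem_range_self n
  have hUo : ∀ n, IsOpen (U n) := fun n => (hUm n).elim (fun h => h ▸ isOpen_univ) (hSo _)
  have hUd : ∀ n, Dense (U n) := fun n => (hUm n).elim (fun h => h ▸ dense_univ) (hSd _)
  have hres : ⋂ n, U n ∈ residual C :=
    countable_iInter_mem.2 fun n => residual_of_dense_open (hUo n) (hUd n)
  have h0 : ∀ᶠ Z in residual C, merge 0 (fun _ => false) Z ∈ ⋂ n, U n := by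
    filter_upwards [hres] with Z hZ
    convert hZ using 1
    funext k
    simp [merge]
  choose f hf using fun n => step (hE n) (hUo n) (Set.iInter_subset U n) n
  let s : ∀ n : ℕ, {p : C × ℕ // ∀ᶠ Z in residual C, merge n p.1 Z ∈ ⋂ n, U n} := fun n =>
    Nat.rec ⟨(fun _ => false, 0), h0⟩
      (fun n p => ⟨f n p.1 p.2, (hf n p.1 p.2).1⟩) n
  have hs : ∀ n, (s n).1.2 ≤ (s (n + 1)).1.2 ∧
      (∀ k, k < (s n).1.2 ∨ (Nat.unpair k).1 < n → (s (n + 1)).1.1 k = (s n).1.1 k) ∧
      E n (col n (s (n + 1)).1.1) ∧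
      ∀ x : C, (∀ i < (s (n + 1)).1.2, x i = (s (n + 1)).1.1 i) → x ∈ U n :=
    fun n => (hf n (s n).1 (s n).2).2
  have hmono : Monotone fun n => (s n).1.2 := monotone_nat_of_le_succ fun n => (hs n).1
  have hag : ∀ m k, k < (s m).1.2 ∨ (Nat.unpair k).1 < m → ∀ m', m ≤ m' →
      (s m').1.1 k = (s m).1.1 k := by
    intro m k hk m' hm
    induction m', hm using Nat.le_induction with
    | base => rfl
    | succ j hj ih =>
      rw [(hs j).2.1 k (hk.imp (fun h => h.trans_le (hmono hj)) fun h => h.trans_le hj), ih]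
  have hlim : ∀ m k, k < (s m).1.2 ∨ (Nat.unpair k).1 < m →
      (s ((Nat.unpair k).1 + 1)).1.1 k = (s m).1.1 k := fun m k hk => by
    rw [← hag m k hk _ (le_max_left m ((Nat.unpair k).1 + 1)),
      hag _ k (Or.inr (Nat.lt_succ_self _)) _ (le_max_right m _)]
  refine ⟨fun k => (s ((Nat.unpair k).1 + 1)).1.1 k, hSG fun t ht => ?_, fun n => ?_⟩
  · obtain ⟨n, rfl⟩ : t ∈ Set.range U := hU ▸ Set.mem_insert_of_mem _ ht
    exact (hs n).2.2.2 _ fun i hi => hlim _ i (Or.inl hi)
  · convert (hs n).2.2.1 using 1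
    funext k
    exact hlim (n + 1) _ (Or.inr (by simp))

end Crest.Agent.R292
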