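import Crest.Agent.R292.Baire

/-! Row 292: Kuratowski-Ulam. -/

set_option autoImplicit false
open Filter Topology

namespace Crest.Agent.R292

/-- Sections of a dense open set of a product are residual at residually many points. -/
theorem ku_open {X Y : Type} [TopologicalSpace X] [TopologicalSpace Y]
    [SecondCountableTopology Y] {U : Set (X × Y)} (ho : IsOpen U) (hd : Dense U) :
    ∀ᶠ x in residual X, ∀ᶠ y in residual Y, (x, y) ∈ U := by
  have h1 : ∀ V ∈ TopologicalSpace.countableBasis Y,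
      ∀ᶠ x in residual X, ∃ y ∈ V, (x, y) ∈ U := by
    intro V hV
    have hVo : IsOpen V := TopologicalSpace.isOpen_of_mem_countableBasis hV
    have hVn : V.Nonempty := TopologicalSpace.nonempty_of_mem_countableBasis hV
    refine residual_of_dense_open ?_ ?_
    · have : {x : X | ∃ y ∈ V, (x, y) ∈ U} = ⋃ y ∈ V, (fun x : X => (x, y)) ⁻¹' U := by
        ext x
        simp
      rw [this]
      exact isOpen_biUnion fun y _ => ho.preimage (by fun_prop)
    · rw [dense_iff_inter_open]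
      intro W hW hWn
      obtain ⟨⟨x, y⟩, ⟨hx, hy⟩, hq⟩ :=
        (dense_iff_inter_open.1 hd) (W ×ˢ V) (hW.prod hVo) (hWn.prod hVn)
      exact ⟨x, hx, y, hy, hq⟩
  have h2 := (eventually_countable_ball (TopologicalSpace.countable_countableBasis Y)).2 h1
  filter_upwards [h2] with x hx
  refine residual_of_dense_open (ho.preimage (f := fun y : Y => (x, y)) (by fun_prop)) ?_
  rw [(TopologicalSpace.isBasis_countableBasis Y).dense_iff]
  intro V hV _
  obtain ⟨y, hy, hq⟩ := hx V hV
  exact ⟨y, hy, hq⟩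

theorem ku1 {X Y : Type} [TopologicalSpace X] [TopologicalSpace Y] [SecondCountableTopology Y]
    {P : X → Y → Prop} (h : ∀ᶠ q in residual (X × Y), P q.1 q.2) :
    ∀ᶠ x in residual X, ∀ᶠ y in residual Y, P x y := by
  obtain ⟨S, hSo, hSd, hSc, hS⟩ := mem_residual_iff.1 h
  have h1 : ∀ U ∈ S, ∀ᶠ x in residual X, ∀ᶠ y in residual Y, (x, y) ∈ U :=
    fun U hU => ku_open (hSo U hU) (hSd U hU)
  filter_upwards [(eventually_countable_ball hSc).2 h1] with x hx
  filter_upwards [(eventually_countable_ball hSc).2 hx] with y hy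
  exact hS (show (x, y) ∈ ⋂₀ S from fun U hU => hy U hU)

/-- Converse of `ku1` for Borel sets. -/
theorem ku2 {P : C → C → Prop} (hP : MeasurableSet {q : C × C | P q.1 q.2})
    (h : ∀ᶠ x in residual C, ∀ᶠ y in residual C, P x y) :
    ∀ᶠ q in residual (C × C), P q.1 q.2 := by
  obtain ⟨U, hU, hPU⟩ := hP.compl.residualEq_isOpen
  rw [eventuallyEq_set] at hPU
  rcases U.eq_empty_or_nonempty with rfl | ⟨⟨a, b⟩, hab⟩
  · filter_upwards [hPU] with q hq
    simpa using hq
  · exfalso
    obtain ⟨V, W, hV, hW, ha, hb, hVW⟩ := isOpen_prod_iff.1 hU a b hab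
    have h1 := ku1 (P := fun x y => (x, y) ∈ {q : C × C | P q.1 q.2}ᶜ ↔ (x, y) ∈ U) hPU
    obtain ⟨x, hxV, hx1, hx2⟩ :=
      (dense_of_mem_residual (h.and h1)).inter_open_nonempty V hV ⟨a, ha⟩
    obtain ⟨y, hyW, hy1, hy2⟩ :=
      (dense_of_mem_residual (hx1.and hx2)).inter_open_nonempty W hW ⟨b, hb⟩
    exact (hy2.2 (hVW ⟨hxV, hyW⟩)) hy1

theorem ku_swap {P : C → C → Prop} (hP : MeasurableSet {q : C × C | P q.1 q.2})
    (h : ∀ᶠ x in residual C, ∀ᶠ y in residual C, P x y) :
    ∀ᶠ y in residual C, ∀ᶠ x in residual C, P x y := by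
  have h1 := ku2 hP h
  have h2 : Tendsto (Prod.swap : C × C → C × C) (residual _) (residual _) :=
    tendsto_residual_of_isOpenMap (Homeomorph.prodComm C C).continuous
      (Homeomorph.prodComm C C).isOpenMap
  exact ku1 (P := fun y x => P x y) (h2.eventually h1)

/-- `ku1` three times. -/
theorem ku4 {P : C → C → C → C → Prop}
    (h : ∀ᶠ q in residual (C × C × C × C), P q.1 q.2.1 q.2.2.1 q.2.2.2) :
    ∀ᶠ y in residual C, ∀ᶠ w in residual C, ∀ᶠ v in residual C, ∀ᶠ u in residual C,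
      P y w v u := by
  filter_upwards [ku1 (P := fun y (r : C × C × C) => P y r.1 r.2.1 r.2.2) h] with y hy
  filter_upwards [ku1 (P := fun w (r : C × C) => P y w r.1 r.2) hy] with w hw
  exact ku1 (P := fun v u => P y w v u) hw

theorem box4 {ι : Type} [Countable ι] {P : ι → C → C → C → C → Prop}
    (hP : ∀ i, MeasurableSet {q : C × C × C × C | P i q.1 q.2.1 q.2.2.1 q.2.2.2})
    (h : ∀ᶠ y in residual C, ∀ᶠ w in residual C, ∀ᶠ v in residual C, ∀ᶠ u in residual C,
      ∃ i, P i y w v u) :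
    ∃ i n a b c d, ∀ᶠ y in residual C, ∀ᶠ w in residual C, ∀ᶠ v in residual C,
      ∀ᶠ u in residual C, P i (app n a y) (app n b w) (app n c v) (app n d u) := by
  choose U hU hPU using fun i => (hP i).residualEq_isOpen
  simp only [eventuallyEq_set] at hPU
  have hne : ∃ i, (U i).Nonempty := by
    by_contra hcon
    push Not at hcon
    have h1 : ∀ᶠ q in residual (C × C × C × C), ∀ i, ¬ P i q.1 q.2.1 q.2.2.1 q.2.2.2 := by
      refine eventually_countable_forall.2 fun i => ?_
      filter_upwards [hPU i] with q hq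
      rw [hcon i] at hq
      simpa using hq
    have h2 := ku4 (P := fun y w v u => ∀ i, ¬ P i y w v u) h1
    obtain ⟨y, hy1, hy2⟩ := (h.and h2).exists
    obtain ⟨w, hw1, hw2⟩ := (hy1.and hy2).exists
    obtain ⟨v, hv1, hv2⟩ := (hw1.and hw2).exists
    obtain ⟨u, ⟨i, hi⟩, hu2⟩ := (hv1.and hv2).exists
    exact hu2 i hi
  obtain ⟨i, ⟨a, b, c, d⟩, hq⟩ := hne
  have hnh := (hU i).mem_nhds hq
  rw [mem_nhds_prod_iff] at hnh
  obtain ⟨A, hA, B', hB', hAB⟩ := hnh
  rw [mem_nhds_prod_iff] at hB'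
  obtain ⟨B, hB, D', hD', hBD⟩ := hB'
  rw [mem_nhds_prod_iff] at hD'
  obtain ⟨D, hD, E, hE, hDE⟩ := hD'
  obtain ⟨n1, h1⟩ := exists_cyl_subset hA
  obtain ⟨n2, h2⟩ := exists_cyl_subset hB
  obtain ⟨n3, h3⟩ := exists_cyl_subset hD
  obtain ⟨n4, h4⟩ := exists_cyl_subset hE
  set n := n1 + n2 + n3 + n4 with hn
  refine ⟨i, n, a, b, c, d, ?_⟩
  have hT : Tendsto (Prod.map (app n a) (Prod.map (app n b) (Prod.map (app n c) (app n d))))
      (residual (C × C × C × C)) (residual (C × C × C × C)) :=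
    tendsto_residual_of_isOpenMap
      ((continuous_app n a).prodMap ((continuous_app n b).prodMap
        ((continuous_app n c).prodMap (continuous_app n d))))
      ((isOpenMap_app n a).prodMap ((isOpenMap_app n b).prodMap
        ((isOpenMap_app n c).prodMap (isOpenMap_app n d))))
  refine ku4 (P := fun y w v u => P i (app n a y) (app n b w) (app n c v) (app n d u)) ?_
  filter_upwards [hT.eventually (hPU i)] with q hq
  refine hq.2 (hAB ⟨h1 _ fun j hj => ?_, hBD ⟨h2 _ fun j hj => ?_, hDE ⟨h3 _ fun j hj => ?_,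
    h4 _ fun j hj => ?_⟩⟩⟩)
  all_goals
    have hjn : j < n := by omega
    simp [app, hjn]

end Crest.Agent.R292
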