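import Crest.Agent.R292.Cone
import Crest.Agent.R292.KU
import Crest.Agent.R292.Chop

/-! Row 292, step 1: joins, peeling of generic parameters, countably many Borel candidates. -/

set_option autoImplicit false
open Filter Topology

namespace Crest.Agent.R292

variable {p : C → C}

theorem Aut.mono (hp : Aut p) {x y : C} (h : Red x y) : Red (p x) (p y) := (hp.iff x y).2 h

theorem Aut.join (hp : Aut p) (x y : C) : Red (p (jn x y)) (jn (p x) (p y)) := by
  obtain ⟨v, h1, h2⟩ := hp.surj (jn (p x) (p y))
  have hx : Red x v := (hp.iff _ _).1 ((red_jn_left _ _).trans h1)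
  have hy : Red y v := (hp.iff _ _).1 ((red_jn_right _ _).trans h1)
  exact (hp.mono (hx.jn hy)).trans h2

theorem Aut.join' (hp : Aut p) (x y : C) : Red (jn (p x) (p y)) (p (jn x y)) :=
  (hp.mono (red_jn_left x y)).jn (hp.mono (red_jn_right x y))

theorem Aut.peel (hp : Aut p) {y t : C} (h : ∀ᶠ g in residual C, Red y (p (jn t g))) :
    Red y (p t) := by
  obtain ⟨v, h1, h2⟩ := hp.surj y
  by_cases hv : Red v t
  · exact h1.trans (hp.mono hv)
  · obtain ⟨g, hg1, hg2⟩ := (h.and (cone_avoid hv)).exists
    exact absurd ((hp.iff _ _).1 (h2.trans hg1)) hg2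

/-- Columns of `A` masked by `G`. -/
def msk (A G : C) : C := fun k => (G (Nat.unpair k).1 && A k)

/-- `a` placed in column `n`. -/
def emb (n : ℕ) (a : C) : C := fun k => (decide ((Nat.unpair k).1 = n) && a (Nat.unpair k).2)

theorem red_msk (A G : C) : Red (msk A G) (jn A G) := by
  have h1 : Red (fun k => G (Nat.unpair k).1) G :=
    red_reindex G (Computable.fst.comp Computable.unpair)
  exact Red.an (h1.trans (red_jn_right A G)) (red_jn_left A G)

theorem col_msk {A G : C} {n : ℕ} (h : G n = true) : col n (msk A G) = col n A := by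
  funext m
  simp [col, msk, h]

theorem measurable_msk {X : Type} [MeasurableSpace X] {a b : X → C} (ha : Measurable a)
    (hb : Measurable b) : Measurable fun q => msk (a q) (b q) := by
  have : Measurable fun q => (fun k => b q (Nat.unpair k).1 : C) :=
    measurable_pi_iff.2 fun k => (measurable_pi_apply _).comp hb
  exact measurable_an this ha

theorem ev_col_not_red (G : C) (n : ℕ) (h : G n = false) :
    ∀ᶠ A in residual C, ¬ Red (col n A) (msk A G) := by
  have h1 : ∀ A : C, ∀ᶠ a in residual C,
      ¬ Red (col n (xr A (emb n a))) (msk (xr A (emb n a)) G) := by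
    intro A
    have e1 : ∀ a, col n (xr A (emb n a)) = xr (col n A) a := by
      intro a; funext m; simp [col, xr, emb]
    have e2 : ∀ a, msk (xr A (emb n a)) G = msk A G := by
      intro a; funext k
      simp only [msk, xr, emb]
      by_cases hk : (Nat.unpair k).1 = n
      · rw [hk, h]; simp
      · simp [hk]
    simp only [e1, e2]
    exact (tendsto_xr_right (col n A)).eventually (countable_meager (countable_red (msk A G)))
  have hm : Measurable fun q : C × C => xr q.1 (emb n q.2) := by
    refine measurable_xr measurable_fst ?_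
    have : Measurable fun q : C × C => (fun k => q.2 (Nat.unpair k).2 : C) :=
      measurable_pi_iff.2 fun k => (measurable_pi_apply _).comp measurable_snd
    exact measurable_an measurable_const this
  have h2 := ku_swap (P := fun A a => ¬ Red (col n (xr A (emb n a))) (msk (xr A (emb n a)) G))
    (measurableSet_red ((measurable_col n).comp hm)
      (measurable_msk hm measurable_const)).compl (Eventually.of_forall h1)
  obtain ⟨a, ha⟩ := h2.exists
  have h3 := (tendsto_xr_left (emb n a)).eventually ha
  have e3 : ∀ A : C, xr (xr A (emb n a)) (emb n a) = A := by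
    intro A; funext k; simp [xr]
  simpa only [e3] using h3

theorem exists_indep : ∃ A : C, ∀ᶠ G in residual C, ∀ n, G n = false →
    ¬ Red (col n A) (msk A G) := by
  have h1 : ∀ G : C, ∀ᶠ A in residual C, ∀ n, G n = false → ¬ Red (col n A) (msk A G) := by
    intro G
    refine eventually_countable_forall.2 fun n => ?_
    by_cases h : G n = false
    · exact (ev_col_not_red G n h).mono fun A hA _ => hA
    · exact Eventually.of_forall fun A h' => absurd h' h
  have hm : MeasurableSet {q : C × C | ∀ n, q.1 n = false → ¬ Red (col n q.2) (msk q.2 q.1)} := by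
    rw [Set.ofPred_forall]
    refine MeasurableSet.iInter fun n => ?_
    have e : {q : C × C | q.1 n = false → ¬ Red (col n q.2) (msk q.2 q.1)} =
        {q : C × C | q.1 n = false}ᶜ ∪ {q : C × C | Red (col n q.2) (msk q.2 q.1)}ᶜ := by
      ext q; simp only [Set.mem_ofPred_eq, Set.mem_union, Set.mem_compl_iff]; tauto
    rw [e]
    refine MeasurableSet.union (MeasurableSet.compl ?_) (MeasurableSet.compl ?_)
    · have hq : Measurable fun q : C × C => q.1 n := (measurable_pi_apply n).comp measurable_fst
      exact hq (measurableSet_singleton false)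
    · exact measurableSet_red ((measurable_col n).comp measurable_snd)
        (measurable_msk measurable_snd measurable_fst)
  exact (ku_swap (P := fun G A => ∀ n, G n = false → ¬ Red (col n A) (msk A G)) hm
    (Eventually.of_forall h1)).exists

open Classical in
theorem Aut.candidates (hp : Aut p) : ∃ F : CF × CF → C → C, (∀ e, Measurable (F e)) ∧
    ∀ x, ∃ e, p x = F e x := by
  obtain ⟨A, hA⟩ := exists_indep
  obtain ⟨w, m, hwm⟩ := chop hA
  obtain ⟨c, hc1, -⟩ := hp.surj (jn A (jn w m))
  choose A' hA1 hA2 using fun n => hp.surj (col n A)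
  let H : CF → C → C := fun f x n => decide (Red (A' n) (lim f.1 (jn x c)))
  have hH : ∀ f, Measurable (H f) := fun f =>
    measurable_decide (P := fun x n => Red (A' n) (lim f.1 (jn x c))) fun n =>
      measurableSet_red measurable_const
        ((measurable_lim f.1).comp (measurable_jn measurable_id measurable_const))
  have key : ∀ x G : C, (∀ n, G n = false → ¬ Red (col n A) (msk A G)) → Red G (p (jn x c)) →
      ∃ f, G = H f x := by
    intro x G hG hGx
    obtain ⟨s, hs1, hs2⟩ := hp.surj (msk A G)
    have hAx : Red A (p (jn x c)) :=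
      ((red_jn_left _ _).trans hc1).trans (hp.mono (red_jn_right x c))
    have hs : Red s (jn x c) := (hp.iff _ _).1 (hs2.trans ((red_msk A G).trans (hAx.jn hGx)))
    obtain ⟨f, hf, hfs⟩ := hs
    refine ⟨⟨f, hf⟩, funext fun n => ?_⟩
    simp only [H, hfs.lim_eq]
    cases hGn : G n
    · symm
      rw [decide_eq_false_iff_not]
      intro hr
      exact hG n hGn ((hA1 n).trans ((hp.mono hr).trans hs2))
    · symm
      rw [decide_eq_true_eq]
      refine (hp.iff _ _).1 ((hA2 n).trans (Red.trans ?_ hs1))
      rw [← col_msk hGn]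
      exact red_col n _
  refine ⟨fun e x => xr (H e.1 x) (H e.2 x), fun e => measurable_xr (hH _) (hH _), fun x => ?_⟩
  have hZ : Red (p x) (p (jn x c)) := hp.mono (red_jn_left x c)
  have hc : Red (jn w m) (p (jn x c)) :=
    ((red_jn_right _ _).trans hc1).trans (hp.mono (red_jn_right x c))
  have hw : Red w (p (jn x c)) := (red_jn_left _ _).trans hc
  have hm : Red m (p (jn x c)) := (red_jn_right _ _).trans hc
  obtain ⟨f1, h1⟩ := key x _ (hwm (p x)).1 (hw.xr (hm.an hZ))
  obtain ⟨f2, h2⟩ := key x _ (hwm (p x)).2 (hw.xr (hm.nt.an hZ))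
  refine ⟨(f1, f2), ?_⟩
  simp only
  rw [← h1, ← h2]
  funext i
  simp only [xr, an, nt]
  cases w i <;> cases m i <;> cases p x i <;> rfl

end Crest.Agent.R292
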