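import Crest.Agent.R292.Step1
import Crest.Agent.R292.Fusion

/-! Row 292, step 2: the automorphism is represented by a Borel map on a comeager set. -/

set_option autoImplicit false
open Filter Topology

namespace Crest.Agent.R292

variable {p : C → C}

theorem exists_key : ∃ b : C, ∀ᶠ y in residual C, ∀ n, ∀ f : CF,
    Red (lim f.1 y) (jn (xr y b) (col n b)) → Red (lim f.1 y) (col n y) := by
  have h1 : ∀ y : C, ∀ᶠ b in residual C, ∀ n, ∀ f : CF,
      Red (lim f.1 y) (jn (xr y b) (col n b)) → Red (lim f.1 y) (col n y) := by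
    intro y
    refine eventually_countable_forall.2 fun n => eventually_countable_forall.2 fun f => ?_
    by_cases h : Red (lim f.1 y) (col n y)
    · exact Eventually.of_forall fun _ _ => h
    · refine ((tendsto_xr_right y).eventually (cone_avoid h)).mono fun b hb hr => ?_
      refine absurd (hr.trans ((red_jn_right _ _).jn ?_)) hb
      have e : col n b = xr (col n y) (col n (xr y b)) := by
        funext m; simp [col, xr]
      rw [e]
      exact (red_jn_left _ _).xr ((red_col n _).trans (red_jn_right _ _))
  have hm : MeasurableSet {q : C × C | ∀ n, ∀ f : CF,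
      Red (lim f.1 q.1) (jn (xr q.1 q.2) (col n q.2)) → Red (lim f.1 q.1) (col n q.1)} := by
    rw [Set.ofPred_forall]
    refine MeasurableSet.iInter fun n => ?_
    rw [Set.ofPred_forall]
    refine MeasurableSet.iInter fun f => ?_
    have e : {q : C × C | Red (lim f.1 q.1) (jn (xr q.1 q.2) (col n q.2)) →
        Red (lim f.1 q.1) (col n q.1)} =
        {q : C × C | Red (lim f.1 q.1) (jn (xr q.1 q.2) (col n q.2))}ᶜ ∪
          {q : C × C | Red (lim f.1 q.1) (col n q.1)} := by
      ext q; simp only [Set.mem_ofPred_eq, Set.mem_union, Set.mem_compl_iff]; tauto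
    rw [e]
    refine MeasurableSet.union (MeasurableSet.compl ?_) ?_
    · exact measurableSet_red ((measurable_lim f.1).comp measurable_fst)
        (measurable_jn (measurable_xr measurable_fst measurable_snd)
          ((measurable_col n).comp measurable_snd))
    · exact measurableSet_red ((measurable_lim f.1).comp measurable_fst)
        ((measurable_col n).comp measurable_fst)
  exact (ku_swap (P := fun y b => ∀ n, ∀ f : CF,
    Red (lim f.1 y) (jn (xr y b) (col n b)) → Red (lim f.1 y) (col n y)) hm
    (Eventually.of_forall h1)).exists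

open Classical in
theorem Aut.dich (hp : Aut p) {F : C → C} (hF : Measurable F) {B : C → Prop}
    (hB : MeasurableSet {x | B x})
    (h1 : ∀ m b, ∃ᶠ x in residual C, B (app m b x) ∧ Red (F (app m b x)) (p (app m b x)))
    (h0 : ∀ m b, ∃ᶠ x in residual C, ¬ (B (app m b x) ∧ Red (F (app m b x)) (p (app m b x)))) :
    False := by
  obtain ⟨Fc, hFc, hc⟩ := hp.candidates
  obtain ⟨b, hb⟩ := exists_key
  let K : (CF × CF) × (CF × CF) → C → C := fun e y n =>
    @decide (B (col n y) ∧ Red (F (col n y)) (Fc e.1 y) ∧
      Red (F (col n y)) (jn (Fc e.2 (xr y b)) (p (col n b)))) (Classical.propDecidable _)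
  have hK : ∀ e, Measurable (K e) := fun e =>
    measurable_decide (P := fun y n => B (col n y) ∧ Red (F (col n y)) (Fc e.1 y) ∧
      Red (F (col n y)) (jn (Fc e.2 (xr y b)) (p (col n b)))) fun n =>
      (measurable_col n hB).inter
        ((measurableSet_red (hF.comp (measurable_col n)) (hFc e.1)).inter
          (measurableSet_red (hF.comp (measurable_col n))
            (measurable_jn ((hFc e.2).comp (measurable_xr measurable_id measurable_const))
              measurable_const)))
  have key : ∀ k : C, ∃ e, ∃ᶠ y in residual C, K e y = k := by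
    intro k
    have hf := fusion (E := fun n x => (B x ∧ Red (F x) (p x)) ↔ k n = true) (by
      intro n m a
      cases k n
      · simpa using h0 m a
      · simpa using h1 m a)
    refine freq_exists ((hf.and_eventually hb).mono fun y hy => ?_)
    obtain ⟨hy1, hy2⟩ := hy
    obtain ⟨e1, he1⟩ := hc y
    obtain ⟨e2, he2⟩ := hc (xr y b)
    refine ⟨(e1, e2), funext fun n => ?_⟩
    simp only [K]
    rw [← he1, ← he2]
    have hiff : Red (F (col n y)) (p (col n y)) ↔ Red (F (col n y)) (p y) ∧
        Red (F (col n y)) (jn (p (xr y b)) (p (col n b))) := by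
      constructor
      · intro h
        refine ⟨h.trans (hp.mono (red_col n y)), h.trans (Red.trans (hp.mono ?_) (hp.join _ _))⟩
        have e : col n y = xr (col n (xr y b)) (col n b) := by
          funext m; simp [col, xr]
        rw [e]
        exact ((red_col n _).trans (red_jn_left _ _)).xr (red_jn_right _ _)
      · rintro ⟨ha, hb'⟩
        obtain ⟨v, hv1, hv2⟩ := hp.surj (F (col n y))
        obtain ⟨f, hf, hfv⟩ := (hp.iff _ _).1 (hv2.trans ha)
        have h3 : Red v (jn (xr y b) (col n b)) :=
          (hp.iff _ _).1 (hv2.trans (hb'.trans (hp.join' _ _)))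
        have h4 := hy2 n ⟨f, hf⟩
        simp only [hfv.lim_eq] at h4
        exact hv1.trans (hp.mono (h4 h3))
    have := hy1 n
    rw [hiff] at this
    rw [Bool.eq_iff_iff]
    exact (@decide_eq_true_iff _ (Classical.propDecidable _)).trans this
  have hcount : (Set.univ : Set C).Countable := by
    refine (Set.countable_iUnion fun e => countable_fibers (hK e)).mono fun k _ => ?_
    obtain ⟨e, he⟩ := key k
    exact Set.mem_iUnion.2 ⟨e, he⟩
  obtain ⟨x, hx⟩ := (countable_meager hcount).exists
  exact hx (Set.mem_univ x)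

theorem Aut.red_app_iff (hp : Aut p) (n : ℕ) (a x z : C) : Red z (p (app n a x)) ↔ Red z (p x) :=
  ⟨fun h => h.trans (hp.mono (red_app n a x)), fun h => h.trans (hp.mono (red_of_app n a x))⟩

theorem Aut.dich_loc (hp : Aut p) {F : C → C} (hF : Measurable F) {B : C → Prop}
    (hB : MeasurableSet {x | B x}) (n : ℕ) (a : C)
    (h1 : ∀ m b, ∃ᶠ x in residual C, B (app n a (app m b x)) ∧
      Red (F (app n a (app m b x))) (p (app n a (app m b x))))
    (h0 : ∀ m b, ∃ᶠ x in residual C, ¬ (B (app n a (app m b x)) ∧
      Red (F (app n a (app m b x))) (p (app n a (app m b x))))) : False := by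
  refine hp.dich (F := fun x => F (app n a x)) (hF.comp (measurable_app n a))
    (B := fun x => B (app n a x)) (measurable_app n a hB) ?_ ?_
  · intro m b
    simpa only [hp.red_app_iff] using h1 m b
  · intro m b
    simpa only [hp.red_app_iff] using h0 m b

theorem Aut.borel (hp : Aut p) : ∃ F : C → C, Measurable F ∧
    ∀ᶠ x in residual C, Red (F x) (p x) ∧ Red (p x) (F x) := by
  obtain ⟨Fc, hFc, hc⟩ := hp.candidates
  obtain ⟨i, hi⟩ := freq_exists (P := fun i x => p x = Fc i x) (Frequently.of_forall hc)
  obtain ⟨n, a, ha⟩ := loc2 hi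
  let F : C → C := fun x => Fc i (app n a x)
  have hF : Measurable F := (hFc i).comp (measurable_app n a)
  have hX : ∀ m b, ∃ᶠ x in residual C, Red (F (app m b x)) (p (app m b x)) ∧
      Red (p (app m b x)) (F (app m b x)) := by
    intro m b
    refine (ha m b).mono fun x hx => ?_
    simp only [F]
    rw [← hx]
    exact ⟨hp.mono (red_app _ _ _), hp.mono (red_of_app _ _ _)⟩
  have c1 : ∀ᶠ x in residual C, Red (F x) (p x) := by
    by_contra hne
    obtain ⟨n', a', h'⟩ := loc2 (P := fun x => ¬ Red (F x) (p x)) (not_eventually.1 hne)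
    refine hp.dich_loc hF (B := fun _ => True) (by simp) n' a' ?_ ?_
    · intro m b
      simp only [app_app]
      exact (hX _ _).mono fun x hx => ⟨trivial, hx.1⟩
    · intro m b
      exact (h' m b).mono fun x hx h => hx h.2
  have c2 : ∀ j, ∀ᶠ x in residual C, ¬ (¬ Red (Fc j x) (F x) ∧ Red (Fc j x) (p x)) := by
    intro j
    by_contra hne
    obtain ⟨n', a', h'⟩ := loc2 (P := fun x => ¬ Red (Fc j x) (F x) ∧ Red (Fc j x) (p x)) hne
    refine hp.dich_loc (hFc j) (B := fun x => ¬ Red (Fc j x) (F x))
      (measurableSet_red (hFc j) hF).compl n' a' h' ?_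
    intro m b
    simp only [app_app]
    exact (hX _ _).mono fun x hx h => h.1 (h.2.trans hx.2)
  refine ⟨F, hF, ?_⟩
  filter_upwards [c1, eventually_countable_forall.2 c2] with x h1 h2
  refine ⟨h1, ?_⟩
  obtain ⟨j, hj⟩ := hc x
  by_contra hne
  refine h2 j ⟨?_, ?_⟩
  · rwa [← hj]
  · rw [← hj]; exact Red.refl _

end Crest.Agent.R292
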