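import Crest.Agent.R292.Step2

/-! Row 292, step 3: one functional computes `F (gop u v w y)` on the whole space. -/

set_option autoImplicit false
open Filter Topology

namespace Crest.Agent.R292

variable {p : C → C}

theorem gop_app (n : ℕ) (a b c d u v w y : C) :
    gop (app n a u) (app n b v) (app n c w) (app n d y) = app n (gop a b c d) (gop u v w y) := by
  funext i
  simp only [gop, xr, an, app]
  split_ifs <;> rfl

theorem gop_self (b : C) : gop b b b b = b := by
  funext i
  simp [gop, xr, an]

theorem tendsto_gop (v w y : C) : Tendsto (fun u => gop u v w y) (residual C) (residual C) :=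
  tendsto_xr_left _

/-- `F` is a Borel map representing `p` on a comeager set. -/
structure Rep (p F : C → C) : Prop where
  meas : Measurable F
  ev : ∀ᶠ x in residual C, Red (F x) (p x) ∧ Red (p x) (F x)

theorem Rep.app (hp : Aut p) {F : C → C} (hF : Rep p F) (n : ℕ) (a : C) :
    Rep p fun x => F (app n a x) :=
  ⟨hF.meas.comp (measurable_app n a), ((tendsto_app n a).eventually hF.ev).mono fun _ hx =>
    ⟨hx.1.trans (hp.mono (red_app _ _ _)), (hp.mono (red_of_app _ _ _)).trans hx.2⟩⟩

theorem Rep.red {F G : C → C} (hF : Rep p F) (hG : Rep p G) :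
    ∀ᶠ x in residual C, ∃ f : CF, Conv f.1 (F x) (G x) := by
  filter_upwards [hF.ev, hG.ev] with x h1 h2
  obtain ⟨f, hf, h⟩ := h2.1.trans h1.2
  exact ⟨⟨f, hf⟩, h⟩

theorem Aut.step3 (hp : Aut p) : ∃ F : C → C, Rep p F ∧
    ∃ ψ : List Bool × List Bool × List Bool × List Bool → List Bool, Computable ψ ∧
      ∀ᶠ y in residual C, ∀ᶠ w in residual C, ∀ᶠ v in residual C, ∀ᶠ u in residual C,
        Conv4 ψ (F u) (F v) (F w) (F y) (F (gop u v w y)) := by
  obtain ⟨F, hFm, hFe⟩ := hp.borel
  have hF : Rep p F := ⟨hFm, hFe⟩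
  have h1 : ∀ᶠ y in residual C, ∀ᶠ w in residual C, ∀ᶠ v in residual C, ∀ᶠ u in residual C,
      ∃ f : CF, Conv f.1 (jn (jn (F u) (F v)) (jn (F w) (F y))) (F (gop u v w y)) := by
    filter_upwards [hFe] with y hy
    filter_upwards [hFe] with w hw
    filter_upwards [hFe] with v hv
    filter_upwards [hFe, (tendsto_gop v w y).eventually hFe] with u hu hg
    have h2 : Red (gop u v w y) (jn (jn u v) (jn w y)) :=
      Red.gop ((red_jn_left _ _).trans (red_jn_left _ _)) ((red_jn_right _ _).trans (red_jn_left _ _))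
        ((red_jn_left _ _).trans (red_jn_right _ _)) ((red_jn_right _ _).trans (red_jn_right _ _))
    have h3 : Red (p (jn u v)) (jn (F u) (F v)) :=
      (hp.join _ _).trans ((hu.2.trans (red_jn_left _ _)).jn (hv.2.trans (red_jn_right _ _)))
    have h4 : Red (p (jn w y)) (jn (F w) (F y)) :=
      (hp.join _ _).trans ((hw.2.trans (red_jn_left _ _)).jn (hy.2.trans (red_jn_right _ _)))
    obtain ⟨f, hf, h⟩ := hg.1.trans ((hp.mono h2).trans ((hp.join _ _).trans
      ((h3.trans (red_jn_left _ _)).jn (h4.trans (red_jn_right _ _)))))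
    exact ⟨⟨f, hf⟩, h⟩
  obtain ⟨ψ0, n, ay, aw, av, au, h2⟩ := box4
    (P := fun (f : CF) y w v u => Conv f.1 (jn (jn (F u) (F v)) (jn (F w) (F y))) (F (gop u v w y)))
    (fun f => by
      have my : Measurable fun q : C × C × C × C => q.1 := measurable_fst
      have mw : Measurable fun q : C × C × C × C => q.2.1 := measurable_snd.fst
      have mv : Measurable fun q : C × C × C × C => q.2.2.1 := measurable_snd.snd.fst
      have mu : Measurable fun q : C × C × C × C => q.2.2.2 := measurable_snd.snd.snd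
      exact measurableSet_conv f.1
        (measurable_jn (measurable_jn (hFm.comp mu) (hFm.comp mv))
          (measurable_jn (hFm.comp mw) (hFm.comp my)))
        (hFm.comp (measurable_gop mu mv mw my))) h1
  simp only [gop_app] at h2
  have ru := hF.app hp n au
  have rv := hF.app hp n av
  have rw' := hF.app hp n aw
  have ry := hF.app hp n ay
  have rg := hF.app hp n (gop au av aw ay)
  have h3 : ∀ᶠ x in residual C, ∃ θ : CF × CF × CF × CF,
      Conv θ.1.1 (F (app n au x)) (F (app n av x)) ∧ Conv θ.2.1.1 (F (app n au x)) (F (app n aw x)) ∧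
      Conv θ.2.2.1.1 (F (app n au x)) (F (app n ay x)) ∧
      Conv θ.2.2.2.1 (F (app n (gop au av aw ay) x)) (F (app n au x)) := by
    filter_upwards [ru.red rv, ru.red rw', ru.red ry, rg.red ru] with x a1 a2 a3 a4
    obtain ⟨f1, a1⟩ := a1
    obtain ⟨f2, a2⟩ := a2
    obtain ⟨f3, a3⟩ := a3
    obtain ⟨f4, a4⟩ := a4
    exact ⟨(f1, f2, f3, f4), a1, a2, a3, a4⟩
  obtain ⟨θ, hθ⟩ := freq_exists h3.frequently
  obtain ⟨m, b, h4⟩ := loc ((measurableSet_conv _ ru.meas rv.meas).inter
    ((measurableSet_conv _ ru.meas rw'.meas).inter ((measurableSet_conv _ ru.meas ry.meas).inter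
      (measurableSet_conv _ rg.meas ru.meas)))) hθ
  refine ⟨fun x => F (app n au (app m b x)), ru.app hp m b,
    fun q => θ.2.2.2.1 (ψ0.1 (jnL (jnL q.1 (θ.1.1 q.2.1))
      (jnL (θ.2.1.1 q.2.2.1) (θ.2.2.1.1 q.2.2.2)))), ?_, ?_⟩
  · refine θ.2.2.2.2.comp (ψ0.2.comp (computable_jnL.comp (computable_jnL.comp Computable.fst
      (θ.1.2.comp (Computable.fst.comp Computable.snd))) (computable_jnL.comp
        (θ.2.1.2.comp (Computable.fst.comp (Computable.snd.comp Computable.snd)))
        (θ.2.2.1.2.comp (Computable.snd.comp (Computable.snd.comp Computable.snd))))))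
  · filter_upwards [(tendsto_app m b).eventually h2, h4] with y hy ey
    filter_upwards [(tendsto_app m b).eventually hy, h4] with w hw ew
    filter_upwards [(tendsto_app m b).eventually hw, h4] with v hv ev'
    filter_upwards [(tendsto_app m b).eventually hv, (tendsto_gop v w y).eventually h4] with u hu eg
    rw [gop_app, gop_self] at hu
    intro la lb lc ld ha hb hc hd
    exact eg.2.2.2.appr (hu.appr ((ha.jnL (ev'.1.appr hb)).jnL
      ((ew.2.1.appr hc).jnL (ey.2.2.1.appr hd))))

end Crest.Agent.R292
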