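import Crest.Agent.R292.Step3

/-! Row 292, step 4: flipping a far coordinate changes `F x` for generic `x`. -/

set_option autoImplicit false
open Filter Topology

namespace Crest.Agent.R292

variable {p F : C → C} {ψ : List Bool × List Bool × List Bool × List Bool → List Bool}

/-- Two `gop` steps translate `u` by `v + w`. -/
def T2 (ψ : List Bool × List Bool × List Bool × List Bool → List Bool) (F : C → C)
    (y w v u : C) : Prop :=
  Conv4 ψ (F u) (F v) (F w) (F y) (F (gop u v w y)) ∧
    Conv4 ψ (F (gop u v w y)) (F v) (F w) (F (nt y)) (F (xr u (xr v w)))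

theorem gop_gop_nt (u v w y : C) : gop (gop u v w y) v w (nt y) = xr u (xr v w) := by
  funext i
  simp only [gop, xr, an, nt]
  cases u i <;> cases v i <;> cases w i <;> cases y i <;> rfl

theorem ev_T2 (h : ∀ᶠ y in residual C, ∀ᶠ w in residual C, ∀ᶠ v in residual C,
    ∀ᶠ u in residual C, Conv4 ψ (F u) (F v) (F w) (F y) (F (gop u v w y))) :
    ∀ᶠ y in residual C, ∀ᶠ w in residual C, ∀ᶠ v in residual C,
      ∀ᶠ u in residual C, T2 ψ F y w v u := by
  filter_upwards [h, tendsto_nt.eventually h] with y h1 h2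
  filter_upwards [h1, h2] with w h1 h2
  filter_upwards [h1, h2] with v h1 h2
  filter_upwards [h1, (tendsto_gop v w y).eventually h2] with u h1 h2
  rw [gop_gop_nt] at h2
  exact ⟨h1, h2⟩

theorem flip_ev_of_freq (hF : Measurable F)
    (h : ∀ᶠ y in residual C, ∀ᶠ w in residual C, ∀ᶠ v in residual C,
      ∀ᶠ u in residual C, T2 ψ F y w v u) (δ : C)
    (hδ : ∃ᶠ x in residual C, F (xr x δ) = F x) : ∀ᶠ x in residual C, F (xr x δ) = F x := by
  have hm : MeasurableSet {x | F (xr x δ) = F x} :=
    measurableSet_eq_C (hF.comp (measurable_xr measurable_id measurable_const)) hF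
  obtain ⟨m, b, h1⟩ := loc hm hδ
  rw [ev_app_iff (P := fun x => F (xr x δ) = F x)] at h1
  by_contra hne
  obtain ⟨m', b', h2⟩ := loc (P := fun x => ¬ F (xr x δ) = F x) hm.compl (not_eventually.1 hne)
  rw [ev_app_iff (P := fun x => ¬ F (xr x δ) = F x)] at h2
  obtain ⟨y, hy⟩ := h.exists
  obtain ⟨w, hw⟩ := hy.exists
  obtain ⟨v, hv1, hv⟩ := exists_in_cyl hw m' (xr w (xr b b'))
  obtain ⟨u, hu1, ⟨t1, t2⟩, ⟨t3, t4⟩, e1, e2⟩ := exists_in_cyl (hv.and
    (((tendsto_xr_left δ).eventually hv).and
      (h1.and ((tendsto_xr_left (xr v w)).eventually h2)))) (max m m') b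
  have e3 : F (xr u δ) = F u := e1 fun i hi => hu1 i (lt_max_of_lt_left hi)
  refine e2 (fun i hi => ?_) ?_
  · have a1 := hu1 i (lt_max_of_lt_right hi)
    have a2 := hv1 i hi
    simp only [xr] at a2 ⊢
    rw [a1, a2]
    cases b i <;> cases w i <;> cases b' i <;> rfl
  · rw [e3] at t3
    rw [t3.unique t1] at t4
    rw [← t4.unique t2]
    congr 1
    funext i
    simp only [xr]
    cases u i <;> cases v i <;> cases w i <;> cases δ i <;> rfl

theorem xr_app_ev (d k : ℕ) (a x : C) : xr (app d a x) (ev (d + k)) = app d a (xr x (ev k)) := by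
  funext i
  simp only [xr, app, ev]
  split_ifs with h
  · simp [show i ≠ d + k by omega]
  · congr 1
    simp only [decide_eq_decide]
    omega

theorem not_all_flips (hp : Aut p) (hF : Rep p F) (n : ℕ) :
    ¬ ∀ m, n ≤ m → ∀ᶠ x in residual C, F (xr x (ev m)) = F x := by
  intro h
  have hG := hF.app hp n zr
  have h1 : ∀ k, ∃ c : Bool, ∀ᶠ x in residual C, F (app n zr x) k = c := by
    intro k
    have hm : Measurable fun x => F (app n zr x) k := (measurable_pi_apply k).comp hG.meas
    rcases zero_one (P := fun x => F (app n zr x) k = true) (hm (measurableSet_singleton true))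
      (fun m => by
        filter_upwards [(tendsto_app n zr).eventually (h (n + m) (by omega))] with x hx
        rw [xr_app_ev] at hx
        rw [hx]) with h2 | h2
    · exact ⟨true, h2⟩
    · exact ⟨false, h2.mono fun x hx => by simpa using hx⟩
  choose c hc using h1
  have h2 : ∀ᶠ x in residual C, F (app n zr x) = c :=
    (eventually_countable_forall.2 hc).mono fun x hx => funext hx
  obtain ⟨x0, a1, a2⟩ := (h2.and hG.ev).exists
  obtain ⟨x, b1, b2, b3⟩ := (h2.and (hG.ev.and (countable_meager (countable_red x0)))).exists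
  refine b3 ((hp.iff _ _).1 (b2.2.trans ?_))
  rw [b1, ← a1]
  exact a2.1

theorem exists_shift (hp : Aut p) (hF : Rep p F) : ∃ (φ : CF) (d : ℕ) (ρ : C),
    ∀ᶠ x in residual C, Conv φ.1 (F (app d ρ x)) (F (app 1 zr (app d ρ x))) := by
  obtain ⟨φ, hφ⟩ := freq_exists (hF.red (hF.app hp 1 zr)).frequently
  obtain ⟨d, ρ, h⟩ := loc (measurableSet_conv _ hF.meas (hF.app hp 1 zr).meas) hφ
  exact ⟨φ, d, ρ, h⟩

theorem flip_ne (hp : Aut p) (hF : Rep p F)
    (h : ∀ᶠ y in residual C, ∀ᶠ w in residual C, ∀ᶠ v in residual C,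
      ∀ᶠ u in residual C, T2 ψ F y w v u) {φ : List Bool → List Bool} {d : ℕ} {ρ : C}
    (hφ : ∀ᶠ x in residual C, Conv φ (F (app d ρ x)) (F (app 1 zr (app d ρ x)))) (n : ℕ) :
    ∀ᶠ x in residual C, F (xr x (ev (d + n))) ≠ F x := by
  by_contra hne
  have h0 : ∀ᶠ x in residual C, F (xr x (ev (d + n))) = F x :=
    flip_ev_of_freq hF.meas h _ (by simpa using not_eventually.1 hne)
  refine not_all_flips hp hF (d + n) fun m hm => ?_
  induction m, hm using Nat.le_induction with
  | base => exact h0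
  | succ m hm ih =>
    obtain ⟨k, rfl⟩ : ∃ k, m = d + k := ⟨m - d, by omega⟩
    refine flip_ev_of_freq hF.meas h _ ?_
    refine ((tendsto_app 1 zr).comp (tendsto_app d ρ)).frequently (Eventually.frequently ?_)
    filter_upwards [hφ, (tendsto_xr_left (ev k)).eventually hφ, (tendsto_app d ρ).eventually ih]
      with x h1 h2 h3
    simp only [Function.comp]
    rw [← xr_app_ev, h3] at h2
    rw [add_comm (d + k) 1, xr_app_ev]
    exact Appr.unique h2 h1

end Crest.Agent.R292
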