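import Crest.Agent.R292.Pt

/-! Row 292: deciding a bit by waiting for one of two streams to differ from a third one. -/

set_option autoImplicit false
open Filter Topology

namespace Crest.Agent.R292

namespace TestsAux

/-- two lists agree on their common length -/
def agree (l m : List Bool) : Bool := decide (l.take m.length = m.take l.length)

theorem primrec_agree : Primrec₂ agree := by
  have h : PrimrecPred (fun q : List Bool × List Bool => q.1.take q.2.length = q.2.take q.1.length) :=
    Primrec.eq.comp
      (Primrec.list_take.comp (Primrec.list_length.comp Primrec.snd) Primrec.fst)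
      (Primrec.list_take.comp (Primrec.list_length.comp Primrec.fst) Primrec.snd)
  exact h.decide

theorem take_pre (a : C) (k j : ℕ) : (pre a k).take j = pre a (min j k) := by
  simp [pre, ← List.map_take, List.take_range]

theorem agree_pre (a u : C) (k j : ℕ) :
    agree (pre a k) (pre u j) = true ↔ ∀ i < min k j, a i = u i := by
  simp only [agree, decide_eq_true_eq, length_pre, take_pre, min_comm j k]
  simp only [pre, List.map_inj_left, List.mem_range]

theorem agree_of_eq {l m : ℕ → List Bool} {u : C} (hl : Appr l u) (hm : Appr m u) (s : ℕ) :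
    agree (l s) (m s) = true := by
  rw [hl.1 s, hm.1 s, agree_pre]
  exact fun _ _ => rfl

theorem exists_not_agree {l m : ℕ → List Bool} {a u : C} (hl : Appr l a) (hm : Appr m u)
    (h : a ≠ u) : ∃ s, agree (l s) (m s) = false := by
  obtain ⟨i, hi⟩ := Function.ne_iff.1 h
  obtain ⟨s, h1, h2⟩ := ((hl.2.eventually (eventually_gt_atTop i)).and
    (hm.2.eventually (eventually_gt_atTop i))).exists
  refine ⟨s, ?_⟩
  rw [← Bool.not_eq_true, hl.1 s, hm.1 s, agree_pre]
  exact fun hc => hi (hc i (lt_min h1 h2))

end TestsAux

open TestsAux in
theorem red_of_tests {O y u : C} {a b : ℕ → C} {A B : ℕ → List Bool → List Bool}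
    {U : List Bool → List Bool} (hA : Computable₂ A) (hB : Computable₂ B) (hU : Computable U)
    (ha : ∀ n, Conv (A n) O (a n)) (hb : ∀ n, Conv (B n) O (b n)) (hu : Conv U O u)
    (h1 : ∀ n, y n = true → a n ≠ u ∧ b n = u) (h0 : ∀ n, y n = false → a n = u ∧ b n ≠ u) :
    Red y O := by
  refine red_of_pt (fun l n => cond (agree (A n l) (U l))
    (cond (agree (B n l) (U l)) none (some false)) (some true)) ?_ ?_ ?_
  · have c1 : Computable fun q : List Bool × ℕ => agree (A q.2 q.1) (U q.1) :=
      primrec_agree.to_comp.comp (hA.comp Computable.snd Computable.fst) (hU.comp Computable.fst)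
    have c2 : Computable fun q : List Bool × ℕ => agree (B q.2 q.1) (U q.1) :=
      primrec_agree.to_comp.comp (hB.comp Computable.snd Computable.fst) (hU.comp Computable.fst)
    exact Computable.cond c1 (Computable.cond c2 (Computable.const _) (Computable.const _))
      (Computable.const _)
  · intro s n c hc
    cases hy : y n
    · have e := agree_of_eq ((h0 n hy).1 ▸ ha n) hu s
      simp only [e, cond_true] at hc
      cases h2 : agree (B n (pre O s)) (U (pre O s)) <;> simp [h2] at hc
      exact hc
    · have e := agree_of_eq ((h1 n hy).2 ▸ hb n) hu s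
      simp only [e, cond_true] at hc
      cases h2 : agree (A n (pre O s)) (U (pre O s)) <;> simp [h2] at hc
      exact hc
  · intro n
    cases hy : y n
    · obtain ⟨s, hs⟩ := exists_not_agree (hb n) hu (h0 n hy).2
      refine ⟨s, ?_⟩
      cases h2 : agree (A n (pre O s)) (U (pre O s)) <;> simp [hs]
    · obtain ⟨s, hs⟩ := exists_not_agree (ha n) hu (h1 n hy).1
      exact ⟨s, true, by simp [hs]⟩

end Crest.Agent.R292
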