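import Crest.Agent.R292.Step4
import Crest.Agent.R292.Tests

/-! Row 292, step 5: a generic real is computed by the image of its join with parameters. -/

set_option autoImplicit false
open Filter Topology

namespace Crest.Agent.R292

variable {p F : C → C} {ψ : List Bool × List Bool × List Bool × List Bool → List Bool}

/-- Uniform reducibility of a sequence. -/
def URed (a : ℕ → C) (O : C) : Prop :=
  ∃ L : ℕ → List Bool → List Bool, Computable₂ L ∧ ∀ n, Conv (L n) O (a n)

theorem Red.ured {a O : C} (h : Red a O) : URed (fun _ => a) O := by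
  obtain ⟨f, hf, h⟩ := h
  exact ⟨fun _ => f, hf.comp Computable.snd, fun _ => h⟩

theorem URed.app4 (hψ : Computable ψ) {a b c d x : ℕ → C} {O : C} (ha : URed a O) (hb : URed b O)
    (hc : URed c O) (hd : URed d O) (h : ∀ n, Conv4 ψ (a n) (b n) (c n) (d n) (x n)) :
    URed x O := by
  obtain ⟨A, hA, ha⟩ := ha
  obtain ⟨B, hB, hb⟩ := hb
  obtain ⟨D, hD, hc⟩ := hc
  obtain ⟨E, hE, hd⟩ := hd
  exact ⟨fun n l => ψ (A n l, B n l, D n l, E n l),
    hψ.comp (Computable.pair hA (Computable.pair hB (Computable.pair hD hE))),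
    fun n => h n _ _ _ _ (ha n) (hb n) (hc n) (hd n)⟩

theorem URed.iter {X : ℕ → C} {O : C} (h0 : Red (X 0) O)
    (Λ : List Bool → List Bool → List Bool) (hΛ : Computable₂ Λ)
    (h : ∀ n l, Appr l (X n) → Appr (fun s => Λ (l s) (pre O s)) (X (n + 1))) : URed X O := by
  obtain ⟨f, hf, h0⟩ := h0
  refine ⟨fun n l => Nat.rec (f l) (fun _ x => Λ x l) n, ?_, fun n => ?_⟩
  · exact Computable.nat_rec (f := fun q : ℕ × List Bool => q.1) (g := fun q => f q.2)
      (h := fun q r => Λ r.2 q.2) Computable.fst (hf.comp Computable.snd)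
      (hΛ.comp (Computable.snd.comp Computable.snd) (Computable.snd.comp Computable.fst)).to₂
  · induction n with
    | zero => exact h0
    | succ n ih => exact h n _ ih

/-- The data needed to pass from `F (0^(d+n) a)` to `F (0^(d+n+1) a)` for all `n`. -/
def Good (ψ : List Bool × List Bool × List Bool × List Bool → List Bool) (F : C → C)
    (φ : List Bool → List Bool) (d : ℕ) (y w z a : C) : Prop :=
  ∀ n, T2 ψ F y w z (app (d + n) zr a) ∧
    Conv φ (F (xr (app (d + n) zr a) (xr z w))) (F (app 1 zr (xr (app (d + n) zr a) (xr z w)))) ∧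
    T2 ψ F y (app 1 zr w) (app 1 zr z) (app 1 zr (xr (app (d + n) zr a) (xr z w)))

theorem shift_back (k : ℕ) (a z w : C) :
    xr (app 1 zr (xr (app k zr a) (xr z w))) (xr (app 1 zr z) (app 1 zr w)) =
      app (k + 1) zr a := by
  funext i
  rcases i with _ | i
  · simp [xr, app, zr]
  · simp only [xr, app, zr, Nat.add_sub_cancel, show ¬ (i + 1 < 1) by omega, if_false,
      Nat.add_lt_add_iff_right, Nat.add_sub_add_right]
    cases z i <;> cases w i <;> simp

theorem Good.ured (hψ : Computable ψ) {φ : List Bool → List Bool} (hφ : Computable φ) {d : ℕ}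
    {y w z a O : C} (h : Good ψ F φ d y w z a) (hy : Red (F y) O) (hy' : Red (F (nt y)) O)
    (hw : Red (F w) O) (hz : Red (F z) O) (hw' : Red (F (app 1 zr w)) O)
    (hz' : Red (F (app 1 zr z)) O) (ha : Red (F (app d zr a)) O) :
    URed (fun n => F (app (d + n) zr a)) O := by
  obtain ⟨fy, cy, hy⟩ := hy
  obtain ⟨fy', cy', hy'⟩ := hy'
  obtain ⟨fw, cw, hw⟩ := hw
  obtain ⟨fz, cz, hz⟩ := hz
  obtain ⟨fw', cw', hw'⟩ := hw'
  obtain ⟨fz', cz', hz'⟩ := hz'
  have aux : ∀ {g f1 f2 f3 : List Bool × List Bool → List Bool}, Computable g → Computable f1 →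
      Computable f2 → Computable f3 → Computable fun q => ψ (g q, f1 q, f2 q, f3 q) :=
    fun h0 h1 h2 h3 => hψ.comp (h0.pair (h1.pair (h2.pair h3)))
  refine URed.iter ha (fun x l => ψ (ψ (φ (ψ (ψ (x, fz l, fw l, fy l), fz l, fw l, fy' l)),
    fz' l, fw' l, fy l), fz' l, fw' l, fy' l)) ?_ fun n l hl => ?_
  · exact aux (aux (hφ.comp (aux (aux Computable.fst (cz.comp Computable.snd)
      (cw.comp Computable.snd) (cy.comp Computable.snd)) (cz.comp Computable.snd)
      (cw.comp Computable.snd) (cy'.comp Computable.snd))) (cz'.comp Computable.snd)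
      (cw'.comp Computable.snd) (cy.comp Computable.snd)) (cz'.comp Computable.snd)
      (cw'.comp Computable.snd) (cy'.comp Computable.snd)
  · obtain ⟨⟨t1, t2⟩, t3, t4, t5⟩ := h n
    rw [shift_back] at t5
    exact t5 _ _ _ _ (t4 _ _ _ _ (t3.appr (t2 _ _ _ _ (t1 _ _ _ _ hl hz hw hy) hz hw hy'))
      hz' hw' hy) hz' hw' hy'

theorem xr_app_cyl (d n : ℕ) (ρ a z w : C) :
    xr (app (d + n) zr a) (xr (app d ρ z) (app d zr w)) = app d ρ (xr (app n zr a) (xr z w)) := by
  funext i
  simp only [xr, app, zr]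
  by_cases h : i < d
  · simp [h, show i < d + n by omega]
  · simp only [h, if_false]
    by_cases h2 : i < d + n
    · simp [h2, show i - d < n by omega]
    · simp [h2, show ¬ i - d < n by omega, Nat.sub_sub]

theorem ev_good (h : ∀ᶠ y in residual C, ∀ᶠ w in residual C, ∀ᶠ v in residual C,
      ∀ᶠ u in residual C, T2 ψ F y w v u) {φ : List Bool → List Bool} {d : ℕ} {ρ : C}
    (hφ : ∀ᶠ x in residual C, Conv φ (F (app d ρ x)) (F (app 1 zr (app d ρ x)))) :
    ∀ᶠ y in residual C, ∀ᶠ w in residual C, ∀ᶠ z in residual C, ∀ᶠ a in residual C,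
      Good ψ F φ d y (app d zr w) (app d ρ z) a := by
  filter_upwards [h] with y hy
  filter_upwards [(tendsto_app d zr).eventually hy,
    ((tendsto_app 1 zr).comp (tendsto_app d zr)).eventually hy] with w h1 h2
  filter_upwards [(tendsto_app d ρ).eventually h1,
    ((tendsto_app 1 zr).comp (tendsto_app d ρ)).eventually h2] with z h1 h2
  refine eventually_countable_forall.2 fun n => ?_
  filter_upwards [(tendsto_app (d + n) zr).eventually h1,
    ((tendsto_xr_left (xr z w)).comp (tendsto_app n zr)).eventually hφ,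
    ((tendsto_app 1 zr).comp ((tendsto_xr_left (xr (app d ρ z) (app d zr w))).comp
      (tendsto_app (d + n) zr))).eventually h2] with a a1 a2 a3
  refine ⟨a1, ?_, a3⟩
  rw [xr_app_cyl]
  exact a2

/-- The data needed to compute `F (u + y e_(d+n))`. -/
def Test (ψ : List Bool × List Bool × List Bool × List Bool → List Bool) (F : C → C)
    (d : ℕ) (y r a u : C) : Prop :=
  ∀ n, Conv4 ψ (F u) (F (app (d + n) zr a)) (F r) (F y) (F (gop u (app (d + n) zr a) r y)) ∧
    Conv4 ψ (F (gop u (app (d + n) zr a) r y)) (F (app (d + n) zr (xr a (ev 0)))) (F r) (F y)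
      (F (xr u (an y (ev (d + n)))))

theorem gop_test (k : ℕ) (u a r y : C) :
    gop (gop u (app k zr a) r y) (app k zr (xr a (ev 0))) r y = xr u (an y (ev k)) := by
  rw [← xr_app_ev, add_zero]
  funext i
  simp only [gop, xr, an]
  cases u i <;> cases app k zr a i <;> cases r i <;> cases y i <;> cases ev k i <;> rfl

theorem ev_test (h : ∀ᶠ y in residual C, ∀ᶠ w in residual C, ∀ᶠ v in residual C,
    ∀ᶠ u in residual C, Conv4 ψ (F u) (F v) (F w) (F y) (F (gop u v w y))) (d : ℕ) :
    ∀ᶠ y in residual C, ∀ᶠ r in residual C, ∀ᶠ a in residual C, ∀ᶠ u in residual C,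
      Test ψ F d y r a u := by
  filter_upwards [h] with y hy
  filter_upwards [hy] with r hr
  have h1 := eventually_countable_forall.2 fun n => (tendsto_app (d + n) zr).eventually hr
  filter_upwards [h1, (tendsto_xr_left (ev 0)).eventually h1] with a a1 a2
  refine eventually_countable_forall.2 fun n => ?_
  filter_upwards [a1 n, (tendsto_gop (app (d + n) zr a) r y).eventually (a2 n)] with u b1 b2
  rw [gop_test] at b2
  exact ⟨b1, b2⟩

theorem Test.ured (hψ : Computable ψ) {d : ℕ} {y r a u O : C} (h : Test ψ F d y r a u)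
    (hy : Red (F y) O) (hr : Red (F r) O) (hu : Red (F u) O)
    (ha : URed (fun n => F (app (d + n) zr a)) O)
    (ha' : URed (fun n => F (app (d + n) zr (xr a (ev 0)))) O) :
    URed (fun n => F (xr u (an y (ev (d + n))))) O :=
  URed.app4 hψ (URed.app4 hψ hu.ured ha hr.ured hy.ured fun n => (h n).1) ha' hr.ured hy.ured
    fun n => (h n).2

theorem xr_an_ev (u y : C) (k : ℕ) :
    xr u (an y (ev k)) = if y k = true then xr u (ev k) else u := by
  funext i
  by_cases hi : i = k
  · subst hi
    cases h : y i <;> simp [xr, an, ev, h]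
  · split_ifs <;> simp [xr, an, ev, hi]

theorem red_of_ured_tests {d : ℕ} {y u O : C} (hu : Red (F u) O)
    (h1 : URed (fun n => F (xr u (an y (ev (d + n))))) O)
    (h2 : URed (fun n => F (xr u (an (nt y) (ev (d + n))))) O)
    (hne : ∀ n, F (xr u (ev (d + n))) ≠ F u) : Red y O := by
  obtain ⟨A, hA, h1⟩ := h1
  obtain ⟨B, hB, h2⟩ := h2
  obtain ⟨U, hU, hu⟩ := hu
  have h3 : Red (fun n => y (d + n)) O := by
    refine red_of_tests hA hB hU h1 h2 hu (fun n hn => ?_) fun n hn => ?_
    · simp only [xr_an_ev, nt, hn]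
      simpa using hne n
    · simp only [xr_an_ev, nt, hn]
      simpa using hne n
  have e : y = app d y fun n => y (d + n) := by
    funext i
    simp only [app]
    split_ifs with h
    · rfl
    · congr 1; omega
  rw [e]
  exact (red_app _ _ _).trans h3

theorem Aut.generic_red (hp : Aut p) : ∀ᶠ y in residual C, Red y (p y) := by
  obtain ⟨F, hF, ψ, hψ, h⟩ := hp.step3
  have hT := ev_T2 h
  obtain ⟨φ, d, ρ, hφ⟩ := exists_shift hp hF
  have hN := eventually_countable_forall.2 (flip_ne hp hF hT hφ)
  have hle : ∀ᶠ x in residual C, Red (F x) (p x) := hF.ev.mono fun x hx => hx.1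
  have hle' : ∀ n a, ∀ᶠ x in residual C, Red (F (app n a x)) (p x) := fun n a =>
    (hF.app hp n a).ev.mono fun x hx => hx.1
  have hle'' : ∀ n a, ∀ᶠ x in residual C, Red (F (app 1 zr (app n a x))) (p x) := fun n a =>
    ((hF.app hp 1 zr).app hp n a).ev.mono fun x hx => hx.1
  filter_upwards [ev_good hT hφ, ev_test h d, tendsto_nt.eventually (ev_test h d), hle,
    tendsto_nt.eventually hle] with y g t t' ly ly'
  refine hp.peel ?_
  filter_upwards [g, hle' d zr, hle'' d zr] with w g lw lw'
  refine hp.peel ?_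
  filter_upwards [g, hle' d ρ, hle'' d ρ] with z g lz lz'
  refine hp.peel ?_
  filter_upwards [t, t', hle] with r t t' lr
  refine hp.peel ?_
  filter_upwards [g, (tendsto_xr_left (ev 0)).eventually g, t, t', hle' d zr,
    (tendsto_xr_left (ev 0)).eventually (hle' d zr)] with a g g' t t' la la'
  refine hp.peel ?_
  filter_upwards [t, t', hle, hN] with u t t' lu hne
  set O := jn (jn (jn (jn (jn y w) z) r) a) u with hO
  have ru : Red u O := red_jn_right _ _
  have r1 : Red (jn (jn (jn (jn y w) z) r) a) O := red_jn_left _ _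
  have ra : Red a O := (red_jn_right _ _).trans r1
  have r2 : Red (jn (jn (jn y w) z) r) O := (red_jn_left _ _).trans r1
  have rr : Red r O := (red_jn_right _ _).trans r2
  have r3 : Red (jn (jn y w) z) O := (red_jn_left _ _).trans r2
  have rz : Red z O := (red_jn_right _ _).trans r3
  have r4 : Red (jn y w) O := (red_jn_left _ _).trans r3
  have rw' : Red w O := (red_jn_right _ _).trans r4
  have ry : Red y O := (red_jn_left _ _).trans r4
  have ra' : Red (xr a (ev 0)) O :=
    (red_of_eq_ge 1 fun i hi => by simp [xr, ev, show i ≠ 0 by omega]).trans ra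
  have py := ly.trans (hp.mono ry)
  have py' := ly'.trans (hp.mono ry.nt)
  have pw := lw.trans (hp.mono rw')
  have pw' := lw'.trans (hp.mono rw')
  have pz := lz.trans (hp.mono rz)
  have pz' := lz'.trans (hp.mono rz)
  have pr := lr.trans (hp.mono rr)
  have pu := lu.trans (hp.mono ru)
  have U1 := g.ured hψ φ.2 py py' pw pz pw' pz' (la.trans (hp.mono ra))
  have U2 := g'.ured hψ φ.2 py py' pw pz pw' pz' (la'.trans (hp.mono ra'))
  exact red_of_ured_tests pu (t.ured hψ py pr pu U1 U2) (t'.ured hψ py' pr pu U1 U2) hne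

theorem Aut.red_self (hp : Aut p) (X : C) : Red X (p X) := by
  refine hp.peel ?_
  filter_upwards [hp.generic_red, (tendsto_xr_left X).eventually hp.generic_red] with G h1 h2
  have e : X = xr G (xr G X) := by
    funext i; simp [xr]
  have h3 : Red (xr G (xr G X)) (p (jn X G)) :=
    (h1.trans (hp.mono (red_jn_right _ _))).xr
      (h2.trans (hp.mono ((red_jn_right _ _).xr (red_jn_left _ _))))
  rwa [← e] at h3

end Crest.Agent.R292
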